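import Vale.Agent.P218WD.Res
import Vale.Agent.P218VA.Cfg
import Vale.Agent.P218XI.Fun
import Vale.Agent.P218EN.Cyl
import Vale.Agent.P218TP.GDefs

/-! The conditions on a cylindrical end of a configuration from the normalised jets. -/

namespace Vale.Agent.P218WD
open Complex Filter Topology Set Vale.Agent.P218VA Vale.Agent.P218XI Vale.Agent.P218EN
open scoped Real

theorem sn2_eq (a : ℂ) : sn2 a = s2 a := by rw [sn2, s2]; ring
theorem sn_eq (a : ℂ) : sn a = sb a := by rw [sn, sb, sn2_eq]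
theorem Bd_va (W a : ℂ) : P218VA.Bd W a = Bd W a := by rw [P218VA.Bd, Bd, sn_eq]
theorem BdA_va (W a : ℂ) : P218VA.BdA W a = BdA W a := by rw [P218VA.BdA, BdA, sn_eq]; ring
theorem BdW_va (W a : ℂ) : P218VA.BdW W a = BdW W a := by rw [P218VA.BdW, BdW, sn_eq]

/-- the one-jet `(τ, τ_w, τ_θ)` at the level `w` in normalised form -/
structure PJ (w : ℝ) (e A τ τw τθ η t p : ℂ) : Prop where
  pos : 0 < w
  eq : 16 * w ^ 2 * e ^ 2 * A = 1
  root : Root e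
  sm : Sm A (e ^ 2) η t p
  h0 : τ = e * (1 + η)
  h1 : τw = e * A * (p - (1 + η))
  h2 : τθ = e * t

namespace PJ
variable {w : ℝ} {e A τ τw τθ η t p m : ℂ} {F : Frame}

theorem e_le (h : PJ w e A τ τw τθ η t p) : ‖e‖ ≤ 1 / 10 := by
  refine le_of_sq_le_sq ?_ (by norm_num)
  rw [← norm_pow]
  linarith [h.sm.ε]

theorem eA_le (h : PJ w e A τ τw τθ η t p) : w * ‖e * A‖ ≤ 1 / 40 := by
  refine le_of_sq_le_sq ?_ (by norm_num)
  have e1 : (w : ℂ) ^ 2 * (e * A) ^ 2 = A / 16 := by linear_combination A / 16 * h.eq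
  have e2 := congrArg norm e1
  rw [norm_mul, norm_pow, norm_pow, norm_real, Real.norm_of_nonneg h.pos.le, norm_div,
    Complex.norm_ofNat] at e2
  rw [mul_pow, e2]
  linarith [h.sm.A]

theorem small (h : PJ w e A τ τw τθ η t p) : ‖τ‖ ≤ 1 / 2 ∧ w * ‖τw‖ ≤ 1 ∧ ‖τθ‖ ≤ 1 := by
  refine ⟨?_, ?_, ?_⟩
  · rw [h.h0]
    exact ((Nr.one_add h.sm.η).small h.e_le).trans (by norm_num)
  · have h1 := ((Nr.one_add h.sm.η).sub h.sm.p).norm_le
    rw [h.h1, norm_mul (e * A), norm_sub_rev, ← mul_assoc]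
    exact (mul_le_mul h.eA_le h1 (norm_nonneg _) (by norm_num)).trans (by norm_num)
  · rw [h.h2, norm_mul]
    exact (mul_le_mul h.e_le h.sm.t (norm_nonneg _) (by norm_num)).trans (by norm_num)

theorem lam (h : PJ w e A τ τw τθ η t p) : 1 + τ ^ 2 ≠ 0 := h.h0 ▸ one_add_tau h.sm

theorem gram_eq (h : PJ w e A τ τw τθ η t p) (hF : IsCyl F) (θ : ℝ) :
    gram (F.a w θ τ τw) (F.b w θ τ τθ) =
      (4 * e * Complex.sqrt (Gam A (e ^ 2) (1 + η) t p)) ^ 2 := by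
  have := gram_cyl (R := 1) (by simp) θ h.pos h.eq h.sm
  rw [Frame.gram_eq _ _ _ _ h.pos (one_add_tau h.sm), rot_G] at this
  rw [Frame.gram_eq _ _ _ _ h.pos h.lam, hF.G_eq, h.h0, h.h1, h.h2, this]

theorem slit (h : PJ w e A τ τw τθ η t p) (hF : IsCyl F) (θ : ℝ) :
    gram (F.a w θ τ τw) (F.b w θ τ τθ) ∈ slitPlane := by
  rw [h.gram_eq hF]
  exact sq_mem_slitPlane (re_ar h.root h.sm)

theorem sqrt_gram (h : PJ w e A τ τw τθ η t p) (hF : IsCyl F) (θ : ℝ) :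
    Complex.sqrt (gram (F.a w θ τ τw) (F.b w θ τ τθ)) =
      4 * e * Complex.sqrt (Gam A (e ^ 2) (1 + η) t p) :=
  P218IN.sqrt_eq_of_sq (re_ar h.root h.sm) (h.gram_eq hF θ).symm

theorem low (h : PJ w e A τ τw τθ η t p) (hF : IsCyl F) (θ : ℝ) :
    1 ≤ w ^ 2 * ‖gram (F.a w θ τ τw) (F.b w θ τ τθ)‖ := by
  have e1 : (w : ℂ) ^ 2 * gram (F.a w θ τ τw) (F.b w θ τ τθ) * A = Gam A (e ^ 2) (1 + η) t p := by
    rw [h.gram_eq hF, mul_pow (4 * e), P218IN.sqrt_sq']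
    linear_combination Gam A (e ^ 2) (1 + η) t p * h.eq
  have e2 := congrArg norm e1
  rw [norm_mul, norm_mul, norm_pow, norm_real, Real.norm_of_nonneg h.pos.le] at e2
  have h3 := h.sm.nr_Gam.norm_ge
  have h4 : 0 ≤ w ^ 2 * ‖gram (F.a w θ τ τw) (F.b w θ τ τθ)‖ := by positivity
  nlinarith [h.sm.A]

theorem contact (h : PJ w e A τ τw τθ η t p) (hF : IsCyl F) (θ : ℝ) (hm : Nr m (1 / 20))
    (hB : pB (e ^ 2) (L2 A (e ^ 2) m - 1) η t p = 0) :
    16 * (w : ℂ) ^ 2 * cexp (-w) * d1 τ τw * si τ /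
      Complex.sqrt (gram (F.a w θ τ τw) (F.b w θ τ τθ)) =
      -P218VA.BdA w (4 * π * e ^ 2 * m) := by
  have h1 := h.sm.lam_ne
  have h2 := (h.sm.sq_bc hm hB).2
  have h3 := h.sm.nr_Gam.sqrt.ne (by norm_num)
  have h4 := h.root.ne
  have h5 := h.eq
  rw [BdA_va, BdA_eq h.root h.sm.ε hm h.eq, h.sqrt_gram hF, eq_div_of_mul_eq h3 h2.symm, h.h0, h.h1]
  simp only [d1, si, mul_pow e]
  generalize Complex.sqrt (Gam A (e ^ 2) (1 + η) t p) = g at h3 ⊢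
  generalize 1 + η = k at h1 ⊢
  generalize 1 + e ^ 2 * k ^ 2 = l at h1 ⊢
  field_simp
  linear_combination (-(4 * (k - p) * k)) * h5

theorem dens (h : PJ w e A τ τw τθ η t p) (hF : IsCyl F) (θ : ℝ) (hm : Nr m (1 / 20))
    (hB : pB (e ^ 2) (L2 A (e ^ 2) m - 1) η t p = 0) :
    4 * cexp (-w) * (d1 τ τθ ^ 2 + si τ ^ 2) /
      Complex.sqrt (gram (F.a w θ τ τw) (F.b w θ τ τθ)) =
      4 * cexp (-w) * e * nu A (e ^ 2) m *
        (Complex.sqrt ((1 + η) ^ 2 + t ^ 2) / (1 + e ^ 2 * (1 + η) ^ 2)) := by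
  have h1 := h.sm.lam_ne
  have h2 := (h.sm.sq_bc hm hB).1
  have h3 := h.sm.nr_Gam.sqrt.ne (by norm_num)
  have h4 := h.root.ne
  have h5 := P218IN.sqrt_sq' (Gam A (e ^ 2) (1 + η) t p)
  have e1 : d1 (e * (1 + η)) (e * t) ^ 2 + si (e * (1 + η)) ^ 2 =
      4 * e ^ 2 * (((1 + η) ^ 2 + t ^ 2) / (1 + e ^ 2 * (1 + η) ^ 2) ^ 2) := by
    simp only [d1, si, mul_pow e]
    field_simp
    ring
  rw [h.sqrt_gram hF, h.h0, h.h2, e1, ← h2, ← h.sm.sqrt_bc hm hB]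
  generalize Complex.sqrt (Gam A (e ^ 2) (1 + η) t p) = g at h3 h5 ⊢
  rw [← h5]
  field_simp

end PJ

theorem root_kap {w : ℝ} (hw : 0 < w) {α : ℂ} (hv : 0 < (1 - α * w).re) :
    Root (P218XI.kap w * prof α w) :=
  (root_sqrt hv).real_mul (inv_pos.2 (Real.sqrt_pos.2 (by linarith)))

/-- jets relative to a profile -/
theorem pj_prof {w : ℝ} (hw : 0 < w) {α η t p : ℂ} (hv : 0 < (1 - α * w).re)
    (h : Sm (Af α w) (ef α w) η t p) :
    PJ w (P218XI.kap w * prof α w) (Af α w) (P218XI.kap w * (prof α w * (1 + η)))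
      (P218XI.kap w * (prof α w * (Af α w * p - (Af α w - xf w) * (1 + η)) -
        xf w * (prof α w * (1 + η)))) (P218XI.kap w * (prof α w * t)) η t p where
  pos := hw
  eq := by
    rw [kap_prof_sq α hw.le]
    exact Af_eq hw (slitPlane_ne_zero (Or.inl hv))
  root := root_kap hw hv
  sm := by rwa [kap_prof_sq α hw.le]
  h0 := by ring
  h1 := by ring
  h2 := by ring

/-- absolute jets -/
theorem pj_abs {w : ℝ} (hw : 50 ≤ w) {U Uw Uθ : ℂ} (h0 : ‖U - 1‖ ≤ 1 / 100)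
    (h1 : 2 * w * ‖Uw‖ ≤ 1 / 100) (h2 : ‖Uθ‖ ≤ 1 / 100) :
    PJ w (P218XI.kap w) (xf w) (P218XI.kap w * U) (P218XI.kap w * (Uw - xf w * U)) (P218XI.kap w * Uθ) (U - 1) Uθ
      (2 * w * Uw) := by
  have w0 : 0 < w := by linarith
  have hx := xf_eq w0
  have e1 : ‖xf w‖ = 1 / (2 * w) := by simp [xf, abs_of_pos w0]
  have e2 : ‖ef 0 w‖ = 1 / (8 * w) := by simp [ef, abs_of_pos w0]
  have h := pj_prof (α := 0) (η := U - 1) (t := Uθ) (p := 2 * w * Uw) w0 (by simp)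
    ⟨by rw [Af_zero, e1, div_le_div_iff₀ (by positivity) (by norm_num)]; linarith,
      by rw [e2, div_le_div_iff₀ (by positivity) (by norm_num)]; linarith, h0, h2,
      by rwa [norm_mul, norm_mul, Complex.norm_two, norm_real, Real.norm_of_nonneg w0.le]⟩
  simp only [prof_zero, Af_zero, mul_one, one_mul, add_sub_cancel, sub_self, zero_mul,
    sub_zero] at h
  rwa [show xf w * (2 * w * Uw) = Uw by linear_combination Uw * hx] at h

theorem mean_ev (x : WA) (w : ℝ) : mean (x.ev w) = x.co 0 w := by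
  have h := x.integral_ev w 0
  have := pi_ne
  simp only [neg_zero, WA.ch, Int.cast_zero, zero_mul, Complex.exp_zero, mul_one] at h
  rw [mean, h]
  field_simp

theorem cont_ev (x : WA) (w : ℝ) : Continuous (x.ev w) :=
  x.continuous_ev.comp (continuous_const.prodMk continuous_id)

section base
variable {a b ε w : ℝ} {α : ℂ} {d σ ω : ℝ → ℝ} {J : Fin 6 → WA} {f ξ : WA}

theorem re_of_base (H : Base a b α ε d σ ω) (hw : w ∈ Icc a b) : 0 < (1 - α * w).re := by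
  have h1 := H.coef.re w hw
  have h2 : 0 < w := H.pos.trans_le hw.1
  rw [Af, inv_re, show (2 * w : ℂ) = ((2 * w : ℝ) : ℂ) by push_cast; rfl, re_ofReal_mul] at h1
  exact (mul_pos_iff_of_pos_left (by positivity)).1 (div_pos_iff_of_pos_right
    (lt_of_le_of_ne (normSq_nonneg _)
      fun h0 => by rw [← h0, div_zero] at h1; exact lt_irrefl _ h1) |>.1 h1)

theorem ev_le_base (H : Base a b α ε d σ ω) {x : WA} (hx : P218EN.Bd (Icc a b) σ ω x 1)
    (hw : w ∈ Icc a b) (θ : ℝ) : ‖x.ev w θ‖ ≤ ε * d w := by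
  simpa using hx.ev_le hw (mul_nonneg H.sys.e0 (H.sys.d0 w hw)) (H.sys.sd w hw) (H.sys.od w hw) θ

theorem ed_le (H : Base a b α ε d σ ω) (hw : w ∈ Icc a b) : ε * d w ≤ 1 / 1000 :=
  (mul_le_of_le_one_right H.sys.e0 (H.sys.d1 w hw)).trans H.coef.e1

theorem es_le (H : Base a b α ε d σ ω) (hw : w ∈ Icc a b) : ε * σ w ≤ ε * d w :=
  (mul_le_of_le_one_left (H.sys.s0 w hw) H.sys.e1).trans (H.sys.sd w hw)

theorem sm_of_base (H : Base a b α ε d σ ω) (hJ : ∀ i, P218EN.Bd (Icc a b) σ ω (J i) 1)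
    (hw : w ∈ Icc a b) (θ : ℝ) :
    Sm (Af α w) (ef α w) ((J 0).ev w θ) ((J 1).ev w θ) ((J 3).ev w θ) := by
  have h1 := ed_le H hw
  have h2 := es_le H hw
  exact ⟨by linarith [H.hA w hw], by linarith [H.he w hw], by linarith [ev_le_base H (hJ 0) hw θ],
    by linarith [ev_le_base H (hJ 1) hw θ], by linarith [ev_le_base H (hJ 3) hw θ]⟩

theorem pj_of_base (H : Base a b α ε d σ ω) (hJ : ∀ i, P218EN.Bd (Icc a b) σ ω (J i) 1)
    (hw : w ∈ Icc a b) (θ : ℝ) :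
    PJ w (P218XI.kap w * prof α w) (Af α w) (P218XI.kap w * U0 α J (w, θ))
      (P218XI.kap w * (U1 α J (w, θ) - xf w * U0 α J (w, θ))) (P218XI.kap w * U2 α J (w, θ))
      ((J 0).ev w θ) ((J 1).ev w θ) ((J 3).ev w θ) :=
  pj_prof (H.pos.trans_le hw.1) (re_of_base H hw) (sm_of_base H hJ hw θ)

theorem pB_of_sol (hS : Sol a b α J f ξ 0) (θ : ℝ) :
    pB (ef α b) (L2 (Af α b) (ef α b) (are (ef α b) ((J 0).ev b)) - 1) ((J 0).ev b θ)
      ((J 1).ev b θ) ((J 3).ev b θ) = 0 := by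
  have h := wEq_iff.1 hS.bc b rfl θ
  rwa [ev_BB, WA.ev_zero] at h

theorem nr_m' {ε η : ℂ} {δ : ℝ} (hε : ‖ε‖ ≤ δ) (hη : ‖η‖ ≤ δ) (hδ : δ ≤ 1 / 100) :
    Nr ((1 + η) ^ 2 / (1 + ε * (1 + η) ^ 2)) (4 * δ) := by
  have h0 : 0 ≤ δ := (norm_nonneg _).trans hε
  have h1 := (nr_lam (hε.trans hδ) (hη.trans hδ)).ne (by norm_num)
  have e : (1 + η) ^ 2 / (1 + ε * (1 + η) ^ 2) - 1 =
      (η + η * (1 + η) - ε * (1 + η) ^ 2) * (1 + ε * (1 + η) ^ 2)⁻¹ := by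
    generalize hl : 1 + ε * (1 + η) ^ 2 = l at h1 ⊢
    field_simp
    rw [← hl]
    ring
  have h2 := Nr.one_add (hη.trans hδ)
  have h3 := (nr_laminv (hε.trans hδ) (hη.trans hδ)).small
    (norm_sub_le_of_le (norm_add_le_of_le hη (h2.small hη)) (h2.sq.small hε))
  rw [Nr, e]
  exact h3.trans (by linarith)

theorem cap_of_base (H : Base a b α ε (dl (Af α)) σ ω)
    (hJ : ∀ i, P218EN.Bd (Icc a b) σ ω (J i) 1) (hw : w ∈ Icc a b) :
    1 ≤ 4 * w ^ 2 * (sn2 (4 * π * ef α w * are (ef α w) ((J 0).ev w))).re := by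
  have h0 := ed_le H hw
  have h1 : ‖ef α w‖ ≤ ε * dl (Af α) w := (H.he w hw).trans (es_le H hw)
  have h2 := ev_le_base H (hJ 0) hw
  have hp : 0 < w := H.pos.trans_le hw.1
  have hm : Nr (are (ef α w) ((J 0).ev w)) (4 * (ε * dl (Af α) w)) :=
    nr_mean (cont_are (by linarith) (cont_ev _ _) fun θ => by linarith [h2 θ])
      fun θ => nr_m' h1 (h2 θ) (by linarith)
  have h3 := (hm.mul (Nr.one_sub (hm.small h1))).mono
    (b := 6 * (ε * dl (Af α) w)) (by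
      have h4 := (norm_nonneg _).trans h1
      generalize ε * dl (Af α) w = x at h0 h4
      nlinarith [mul_nonneg h4 h4, mul_le_mul_of_nonneg_left h0 (mul_nonneg h4 h4)])
  have hA := Af_eq hp (slitPlane_ne_zero (Or.inl (re_of_base H hw)))
  have A0 := H.coef.A0 hw
  have A1 : Af α w ≠ 0 := norm_pos_iff.1 A0
  have e1 : ((4 * w ^ 2 : ℝ) : ℂ) * sn2 (4 * π * ef α w * are (ef α w) ((J 0).ev w)) =
      (Af α w)⁻¹ + (are (ef α w) ((J 0).ev w) * (1 - ef α w * are (ef α w) ((J 0).ev w)) - 1) *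
        (Af α w)⁻¹ := by
    have := pi_ne
    rw [sn2]
    push_cast
    field_simp
    linear_combination (4 * are (ef α w) ((J 0).ev w) *
      (1 - ef α w * are (ef α w) ((J 0).ev w))) * hA
  rw [← re_ofReal_mul, e1, add_re]
  have h4 := (abs_le.1 (abs_re_le_norm ((are (ef α w) ((J 0).ev w) *
    (1 - ef α w * are (ef α w) ((J 0).ev w)) - 1) * (Af α w)⁻¹))).1
  rw [norm_mul, norm_inv] at h4
  have h5 := mul_le_mul_of_nonneg_right h3 (inv_pos.2 A0).le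
  have e2 : (Af α w)⁻¹.re = dl (Af α) w * ‖Af α w‖⁻¹ := by
    rw [inv_re, normSq_eq_norm_sq, dl]
    field_simp
  have h6 : 1000 ≤ dl (Af α) w * ‖Af α w‖⁻¹ := by
    have := H.coef.A_le hw
    rw [← div_eq_mul_inv, le_div_iff₀ A0]
    nlinarith [H.coef.e1, H.coef.dl_pos hw]
  have h7 : 6 * (ε * dl (Af α) w) * ‖Af α w‖⁻¹ ≤ 6 / 1000 * (dl (Af α) w * ‖Af α w‖⁻¹) := by
    nlinarith [H.coef.e1]
  rw [e2]
  linarith

end base

section geo
variable {M ι κ : Type*} [TopologicalSpace M] [ChartedSpace E2 M] [MeasurableSpace M]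
  (G : Geo M ι κ) (C : Cfg M ι κ) (W : ι → ℝ) (i : ι) {a ε : ℝ} {α : ℂ} {σ ω : ℝ → ℝ}
  {J : Fin 6 → WA} {f ξ : WA}

/-- the end `i` of the configuration is given by the jets `J` at the level `w` -/
structure At (α : ℂ) (J : Fin 6 → WA) (w : ℝ) : Prop where
  t : ∀ θ, C.t (.inl i) (w, θ) = P218XI.kap w * U0 α J (w, θ)
  tw : ∀ θ, C.tw (.inl i) (w, θ) = P218XI.kap w * (U1 α J (w, θ) - xf w * U0 α J (w, θ))
  tθ : ∀ θ, C.tθ (.inl i) (w, θ) = P218XI.kap w * U2 α J (w, θ)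

variable {C i}

omit [TopologicalSpace M] [ChartedSpace E2 M] [MeasurableSpace M] in
theorem At.pj {b w : ℝ} {d : ℝ → ℝ} (h : At C i α J w) (H : Base a b α ε d σ ω)
    (hJ : ∀ i, P218EN.Bd (Icc a b) σ ω (J i) 1) (hw : w ∈ Icc a b) (θ : ℝ) :
    PJ w (P218XI.kap w * prof α w) (Af α w) (C.t (.inl i) (w, θ)) (C.tw (.inl i) (w, θ))
      (C.tθ (.inl i) (w, θ)) ((J 0).ev w θ) ((J 1).ev w θ) ((J 3).ev w θ) := by
  rw [h.t, h.tw, h.tθ]
  exact pj_of_base H hJ hw θ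

omit [TopologicalSpace M] [ChartedSpace E2 M] [MeasurableSpace M] in
theorem At.cap {w : ℝ} (h : At C i α J w) (hw : 0 ≤ w) :
    C.cap i w = 4 * π * ef α w * are (ef α w) ((J 0).ev w) := by
  rw [Cfg.cap, integral_eq_mean, are, ← kap_prof_sq α hw]
  simp only [h.t, U0, ← mul_assoc, cc_tau, mean_mul]
  ring

/-- the conditions at the cut -/
theorem At.cut (h : At C i α J (W i)) (H : Base a (W i) α ε (dl (Af α)) σ ω)
    (hJ : ∀ k, P218EN.Bd (Icc a (W i)) σ ω (J k) 1) (hS : Sol a (W i) α J f ξ 0) :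
    (∀ θ, 1 ≤ W i ^ 2 * ‖G.grm C (.inl i) (W i, θ)‖) ∧
      1 ≤ 4 * W i ^ 2 * (sn2 (C.cap i (W i))).re ∧
      ∀ θ, 16 * (W i : ℂ) ^ 2 * cexp (-W i) *
        d1 (C.t (.inl i) (W i, θ)) (C.tw (.inl i) (W i, θ)) * si (C.t (.inl i) (W i, θ)) /
          Complex.sqrt (G.grm C (.inl i) (W i, θ)) = -P218VA.BdA (W i) (C.cap i (W i)) := by
  have hw := right_mem_Icc.2 H.coef.le
  have hp : 0 < W i := H.pos.trans_le hw.1
  have hs := sm_of_base H hJ hw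
  rw [h.cap hp.le]
  refine ⟨fun θ => (h.pj H hJ hw θ).low isCyl_cylF θ, cap_of_base H hJ hw, fun θ => ?_⟩
  have := (h.pj H hJ hw θ).contact isCyl_cylF θ
    (nr_are (hs θ).ε (cont_ev _ _) fun θ => (hs θ).η)
    (by rw [kap_prof_sq α hp.le]; exact pB_of_sol hS θ)
  rw [kap_prof_sq α hp.le] at this
  exact this

/-- the derivative of the action in the cut -/
theorem At.res (h : At C i α J (W i)) {d : ℝ → ℝ} (H : Base a (W i) α ε d σ ω)
    (hJ : ∀ k, P218EN.Bd (Icc a (W i)) σ ω (J k) 1) (hS : Sol a (W i) α J f ξ 0)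
    (hpin : (J 0).co 0 (W i) = 0) :
    ‖G.Res W C i - (2 * π * Real.exp (-W i) / W i : ℝ) * P218IN.Rr (P218TP.VW (W i) α)‖ ≤
      Real.exp (-W i) * (100 * ‖P218XI.kap (W i) * prof α (W i)‖ * ω (W i) ^ 2 + 3 / W i ^ 2) := by
  have hw := right_mem_Icc.2 H.coef.le
  have hp : 0 < W i := H.pos.trans_le hw.1
  have hs := sm_of_base H hJ hw
  have he := kap_prof_sq α hp.le
  have h1 : ∀ θ, ‖(J 0).ev (W i) θ - mean ((J 0).ev (W i))‖ ≤ ω (W i) := fun θ => by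
    simpa [mean_ev] using (hJ 0).ev_sub_le hw (H.sys.o0 _ hw) θ
  have h2 : ∀ θ, ‖(J 1).ev (W i) θ‖ ≤ ω (W i) := fun θ => by
    simpa [hS.jet.t1 0 _ hw] using (hJ 1).ev_sub_le hw (H.sys.o0 _ hw) θ
  have key := res_le hp (h.pj H hJ hw 0).eq (h.pj H hJ hw 0).root (hs 0).A (he ▸ (hs 0).ε)
    (cont_ev _ _) (cont_ev _ _) (fun θ => (hs θ).η) (fun θ => (hs θ).t) h1 h2
  rw [mean_ev, hpin, add_zero, one_pow, mul_one, he] at key
  have e1 : ∀ θ, 4 * cexp (-W i) * (d1 (C.t (.inl i) (W i, θ)) (C.tθ (.inl i) (W i, θ)) ^ 2 +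
      si (C.t (.inl i) (W i, θ)) ^ 2) / Complex.sqrt (G.grm C (.inl i) (W i, θ)) = _ := fun θ =>
    (h.pj H hJ hw θ).dens isCyl_cylF θ (nr_are (hs θ).ε (cont_ev _ _) fun θ => (hs θ).η)
      (by rw [he]; exact pB_of_sol hS θ)
  rw [Geo.Res, integral_eq_mean, funext e1, mean_mul, h.cap hp.le, BdW_va, he]
  convert key using 3
  · rw [len]
    ring
  · rfl

theorem om_sq_le {a0 w : ℝ} (h : Pt a0 α w) :
    ‖P218XI.kap w * prof α w‖ * P218EN.om a0 α w ^ 2 ≤ 64 * a0 * w ^ (-(7 / 4) : ℝ) := by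
  have hw := h.w_pos
  have ha := h.a0_pos
  have a1 : 1 ≤ a0 := le_trans (by norm_num) h.big
  have w1 : 1 ≤ w := a1.trans h.le
  have h1 : ‖P218XI.kap w * prof α w‖ ≤ 1 := by
    refine le_of_sq_le_sq ?_ zero_le_one
    rw [← norm_pow, kap_prof_sq α hw.le, h.norm_ef]
    linarith [h.tau_le, inv_le_one_of_one_le₀ w1]
  have h2 : P218EN.om a0 α w ^ 2 = a0⁻¹ * (a0 * tau α w) ^ (7 / 4 : ℝ) := by
    rw [P218EN.om, mul_pow, inv_pow, Real.sq_sqrt ha.le, ← Real.rpow_natCast,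
      ← Real.rpow_mul (mul_pos ha h.tau_pos).le]
    norm_num
  have h3 : (a0 * tau α w) ^ (7 / 4 : ℝ) ≤ (8 * a0) ^ (2 : ℝ) * w ^ (-(7 / 4) : ℝ) := by
    calc _ ≤ (8 * a0 * w⁻¹) ^ (7 / 4 : ℝ) :=
          Real.rpow_le_rpow (mul_pos ha h.tau_pos).le (by nlinarith [h.tau_le]) (by norm_num)
      _ = (8 * a0) ^ (7 / 4 : ℝ) * w ^ (-(7 / 4) : ℝ) := by
          rw [Real.mul_rpow (by positivity) (by positivity), Real.inv_rpow hw.le,
            Real.rpow_neg hw.le]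
      _ ≤ _ := mul_le_mul_of_nonneg_right
          (Real.rpow_le_rpow_of_exponent_le (by linarith) (by norm_num)) (by positivity)
  rw [Real.rpow_two] at h3
  calc _ ≤ 1 * (a0⁻¹ * ((8 * a0) ^ 2 * w ^ (-(7 / 4) : ℝ))) := by
        have := mul_pos ha h.tau_pos
        rw [h2]
        gcongr
    _ = _ := by field_simp; norm_num

/-- the form needed for the residual data -/
theorem At.res_std {a0 : ℝ} (h : At C i α J (W i)) (H : Rg a0 a (W i) α)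
    (hJ : ∀ k, P218EN.Bd (Icc a (W i)) (sg a0 α) (P218EN.om a0 α) (J k) 1) (hS : Sol a (W i) α J f ξ 0)
    (hpin : (J 0).co 0 (W i) = 0) :
    ‖G.Res W C i - (2 * π * Real.exp (-W i) / W i : ℝ) * P218IN.Rr (P218TP.VW (W i) α)‖ ≤
      (6400 * a0 + 3) * Real.exp (-W i) * W i ^ (-(7 / 4) : ℝ) := by
  have p := H.pt (right_mem_Icc.2 H.le)
  have w1 : 1 ≤ W i := (le_trans (by norm_num) p.big).trans p.le
  have h1 : 3 / W i ^ 2 ≤ 3 * W i ^ (-(7 / 4) : ℝ) := by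
    rw [div_eq_mul_inv, ← Real.rpow_two, ← Real.rpow_neg p.w_pos.le]
    exact mul_le_mul_of_nonneg_left (Real.rpow_le_rpow_of_exponent_le w1 (by norm_num))
      (by norm_num)
  refine (h.res G W H.base hJ hS hpin).trans ?_
  rw [mul_comm (6400 * a0 + 3), mul_assoc (Real.exp _)]
  refine mul_le_mul_of_nonneg_left ?_ (Real.exp_pos _).le
  nlinarith [om_sq_le p]

end geo

end Vale.Agent.P218WD
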