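import Vale.Agent.P218WD.Ends
import Vale.Agent.P218AC.Defs
import Vale.Agent.P218VA.Fam
import Vale.Agent.P218VA.Pull
import Vale.Agent.P218TP.G1

/-! The cylindrical ends of the configurations given by the static construction. -/

open Set Filter Metric Topology Complex Function
open scoped Matrix Real

set_option linter.unusedSectionVars false

noncomputable section

namespace Vale.Agent.P218WD

open Vale.Agent.P218VA Vale.Agent.P218CO Vale.Agent.P218XI Vale.Agent.P218ST Vale.Agent.P218AC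
open Vale.Agent.P218GA Vale.Agent.P218HB Vale.Agent.P272.K.LIN
open Vale.Agent.P218EN (WA xf ef Af Rg wEq_iff ep)
open Vale.Agent.P218SQ (Pt Adm)

section sol
variable {a0 s W : ℝ} {α : ℂ} {J : Fin 6 → WA} (h : CylSol a0 s W α J)
include h

lemma sol_pos : 0 < s := h.rg.base.pos

lemma sol_re {w : ℝ} (hw : w ∈ Icc s W) : 0 < (1 - α * w).re := (h.rg.pt hw).re_pos

lemma sol_jetU : Jet2 (Icc s W) (U0 α J) (U1 α J) (U2 α J) (U11 α J) (U12 α J) (U22 α J) :=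
  jet2_U (sol_pos h) (fun _ => sol_re h) h.sol.jet

lemma sol_ev_le (n : Fin 6) {w : ℝ} (hw : w ∈ Icc s W) (θ : ℝ) : ‖(J n).ev w θ‖ ≤ 1 :=
  (ev_le_base h.rg.base (h.cls n) hw θ).trans ((ed_le h.rg.base hw).trans (by norm_num))

theorem sol_lip :
    ∃ L ρ : ℝ, 0 ≤ L ∧ 0 < ρ ∧ ∀ δ < ρ, ∀ w ∈ Icc s W, ∀ (θ w' : ℝ) (α' : ℂ) (J' : Fin 6 → WA),
      |w' - w| ≤ δ → ‖α' - α‖ ≤ δ → (∀ n, ‖(J' n).ev w' θ - (J n).ev w θ‖ ≤ δ) →
      ‖P218XI.kap w' * U0 α' J' (w', θ) - P218XI.kap w * U0 α J (w, θ)‖ ≤ L * δ ∧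
      ‖P218XI.kap w' * (U1 α' J' (w', θ) - xf w' * U0 α' J' (w', θ)) -
        P218XI.kap w * (U1 α J (w, θ) - xf w * U0 α J (w, θ))‖ ≤ L * δ ∧
      ‖P218XI.kap w' * U2 α' J' (w', θ) - P218XI.kap w * U2 α J (w, θ)‖ ≤ L * δ := by
  obtain ⟨L, ρ, h1, h2, h3⟩ := exists_lip_near (((isCompact_singleton (x := α)).prod
    (isCompact_Icc (a := s) (b := W))).prod (isCompact_closedBall (0 : T3 ℂ) 1)) (f := Tj) (by
      rintro ⟨⟨_, w⟩, k⟩ ⟨⟨rfl, hw⟩, -⟩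
      exact contDiffAt_Tj ((sol_pos h).trans_le hw.1) (sol_re h hw))
  refine ⟨L, ρ, h1, h2, fun δ hδ w hw θ w' α' J' b1 b2 b3 => ?_⟩
  have b4 : ‖(((α', w'), (J' 0).ev w' θ, (J' 1).ev w' θ, (J' 3).ev w' θ) : (ℂ × ℝ) × T3 ℂ) -
      ((α, w), (J 0).ev w θ, (J 1).ev w θ, (J 3).ev w θ)‖ ≤ δ := by
    simp [Prod.norm_def, b1, b2, b3]
  have k := (h3 ((α, w), (J 0).ev w θ, (J 1).ev w θ, (J 3).ev w θ) ⟨⟨rfl, hw⟩,
    by simp [Prod.norm_def, sol_ev_le h _ hw]⟩ _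
    (mem_ball_iff_norm.2 (b4.trans_lt hδ)) _ (mem_ball_self h2)).trans
      (mul_le_mul_of_nonneg_left b4 h1)
  exact ⟨((norm_fst_le _).trans (norm_snd_le _)).trans k,
    (((norm_fst_le _).trans (norm_snd_le _)).trans (norm_snd_le _)).trans k,
    (((norm_snd_le _).trans (norm_snd_le _)).trans (norm_snd_le _)).trans k⟩

end sol

variable {S : Set E3} {w : E3 → ℝ} {δ C : ℝ} {ι κ M : Type} [Fintype ι] [Fintype κ]
  [TopologicalSpace M] [ChartedSpace E2 M] [T2Space M] [RSm E2 M] [CompactSpace M]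
  [MeasurableSpace M] [BorelSpace M] {m : Model S w δ C ι κ M} {τ : Type} [Fintype τ]
  (H : Hub m τ) (𝒞 : Cov E2 M) {W : ι → ℝ} {z : Pt ι τ}

/-- (A) the clauses of `Geo.Sol` on a cylindrical end -/
theorem cyl_sol (h : H.c.Ok W z) (i : ι) :
    JetAt (geo H 𝒞) W (cfg H W z) (.inl i) ∧ SmallAt (geo H 𝒞) W (cfg H W z) (.inl i) ∧
    (∀ p : ℝ × ℝ, p.1 ∈ Icc (geo H 𝒞).s (W i) →
      (geo H 𝒞).grm (cfg H W z) (.inl i) p ∈ slitPlane) ∧
    (∀ θ, 1 ≤ W i ^ 2 * ‖(geo H 𝒞).grm (cfg H W z) (.inl i) (W i, θ)‖) ∧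
    1 ≤ 4 * W i ^ 2 * (sn2 ((cfg H W z).cap i (W i))).re ∧
    ∀ θ, 16 * (W i : ℂ) ^ 2 * cexp (-W i) *
      d1 ((cfg H W z).t (.inl i) (W i, θ)) ((cfg H W z).tw (.inl i) (W i, θ)) *
        si ((cfg H W z).t (.inl i) (W i, θ)) /
        Complex.sqrt ((geo H 𝒞).grm (cfg H W z) (.inl i) (W i, θ)) =
      -P218VA.BdA (W i) ((cfg H W z).cap i (W i)) := by
  have k := H.cylSol W z h i
  have sub : Icc (H.s + 1) (W i) ⊆ Icc H.s (W i) := Icc_subset_Icc_left (by linarith)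
  have pj := fun (p : ℝ × ℝ) (hp : p.1 ∈ Icc (H.s + 1) (W i)) =>
    pj_of_base k.rg.base k.cls (sub hp) p.2
  refine ⟨?_, fun p hp => (pj p hp).small, fun p hp => (pj p hp).slit isCyl_cylF p.2,
    (cfg_at H W z i _).cut _ W k.rg.base k.cls k.sol⟩
  have j := jet2_kap (fun w hw => (sol_pos k).trans_le hw.1) (sol_jetU k)
  refine ⟨_, _, _, ⟨j.j0.mono sub, j.j1.mono sub, j.j2.mono sub⟩, fun p hp => ?_⟩
  have hp' := sub (interior_subset hp)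
  have h1 := isCyl_cylF.PP_U (sol_pos k) (fun _ => sol_re k) (H.J W z i) hp'
    (sm_of_base k.rg.base k.cls hp' p.2).lam_ne
  rw [wEq_iff.1 k.sol.eq _ hp', WA.ev_zero] at h1
  exact h1.trans (by simp)

lemma close_of (h : H.c.Ok W z) : ∃ L ρ : ℝ, 0 ≤ L ∧ 0 < ρ ∧ ∀ δ < ρ, ∀ W' z' i ψ ψ',
    IsPull (H.s + 1) (W i) (W' i) ψ ψ' δ → ‖H.α W' z' i - H.α W z i‖ ≤ δ →
    (∀ n, ∀ v ∈ Icc H.s (W i), ∀ θ, ‖(H.J W' z' i n).ev (ψ v) θ - (H.J W z i n).ev v θ‖ ≤ δ) →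
    CylClose (geo H 𝒞) W W' (cfg H W z) (cfg H W' z') (L * δ) i := by
  choose L ρ h1 h2 h3 using fun i => sol_lip (H.cylSol W z h i)
  obtain ⟨r, r0, hr⟩ : ∃ r > 0, ∀ i, r ≤ ρ i :=
    (eventually_nhdsWithin_of_eventually_nhds (s := Ioi 0) (eventually_all.2 fun i =>
      eventually_le_nhds (h2 i))).and self_mem_nhdsWithin |>.exists.imp fun r hr => ⟨hr.2, hr.1⟩
  have a0 : 0 ≤ ∑ i, L i := Finset.sum_nonneg fun i _ => h1 i
  refine ⟨1 + ∑ i, L i, r, by linarith, r0, fun δ hδ W' z' i ψ ψ' p1 p2 p3 => ?_⟩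
  have d0 : 0 ≤ δ := (norm_nonneg _).trans p2
  have e1 : δ ≤ (1 + ∑ i, L i) * δ := by nlinarith
  have e2 : L i * δ ≤ (1 + ∑ i, L i) * δ := mul_le_mul_of_nonneg_right (by
    linarith [Finset.single_le_sum (fun i _ => h1 i) (Finset.mem_univ i)]) d0
  refine ⟨ψ, ψ', ⟨p1.deriv, p1.cont, p1.low, p1.top, fun v hv => (p1.c0 v hv).trans e1,
    fun v hv => (p1.c1 v hv).trans e1⟩, fun v hv θ => ?_⟩
  have hv' : v ∈ Icc H.s (W i) := Icc_subset_Icc_left (by simp [geo]) hv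
  obtain ⟨k1, k2, k3⟩ := h3 i δ (hδ.trans_le (hr i)) v hv' θ (ψ v) _ _ (p1.c0 v hv) p2
    fun n => p3 n v hv' θ
  exact ⟨k1.trans e2, k2.trans e2, k3.trans e2⟩

/-- (B) dependence on the parameter -/
theorem cyl_lipz (h : H.c.Ok W z) : ∃ L : ℝ, 0 ≤ L ∧ ∀ᶠ z' in 𝓝 z, ∀ i,
    CylClose (geo H 𝒞) W W (cfg H W z) (cfg H W z') (L * ‖z' - z‖) i := by
  obtain ⟨L, ρ, h1, h2, h3⟩ := close_of H 𝒞 h
  have n := (H.c.isOpen_dom W).mem_nhds h.2
  obtain ⟨c, c0, hc⟩ := (((H.α_holo W h.1).differentiableAt n).prodMk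
    ((H.J_holo W h.1).differentiableAt n)).isBigO_sub.exists_nonneg
  have t : Tendsto (fun z' => c * ‖z' - z‖) (𝓝 z) (𝓝 0) :=
    Continuous.tendsto' (by fun_prop) _ _ (by simp)
  refine ⟨L * c, by positivity, ?_⟩
  filter_upwards [hc.bound, t.eventually_lt_const h2] with z' k1 k2 i
  rw [mul_assoc]
  refine h3 _ k2 W z' i id _ (isPull_id _ _ (by positivity))
    ((norm_le_pi_norm (H.α W z' - H.α W z) i).trans ((norm_fst_le _).trans k1))
    fun n v _ θ => ?_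
  rw [id, ← P218EN.ev_sub]
  exact (((WA.norm_ev_le _ _ _).trans (norm_le_pi_norm ((H.J W z' - H.J W z) i) n)).trans
    (norm_le_pi_norm _ i)).trans ((norm_snd_le _).trans k1)

/-- (C) dependence on the cuts -/
theorem cyl_lipW (h : H.c.Ok W z) : ∃ L : ℝ, 0 ≤ L ∧ ∀ᶠ W' in 𝓝 W, H.c.Ok W' z → ∀ i,
    CylClose (geo H 𝒞) W W' (cfg H W z) (cfg H W' z) (L * ‖W' - W‖) i := by
  obtain ⟨L, ρ, h1, h2, h3⟩ := close_of H 𝒞 h
  obtain ⟨c, hc⟩ := H.J_lip W z h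
  have m1 := P218PB.one_le_Mchi
  have c0 : 0 ≤ max c P218PB.Mchi := le_max_of_le_right (by linarith)
  have t : Tendsto (fun W' => max c P218PB.Mchi * ‖W' - W‖) (𝓝 W) (𝓝 0) :=
    Continuous.tendsto' (by fun_prop) _ _ (by simp)
  refine ⟨L * max c P218PB.Mchi, by positivity, ?_⟩
  filter_upwards [hc, t.eventually_lt_const h2] with W' k1 k2 k3 i
  have e1 : c * ‖W' - W‖ ≤ max c P218PB.Mchi * ‖W' - W‖ := by gcongr; exact le_max_left _ _
  have e2 : P218PB.Mchi * |W' i - W i| ≤ max c P218PB.Mchi * ‖W' - W‖ :=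
    mul_le_mul (le_max_right _ _) (norm_le_pi_norm (W' - W) i) (abs_nonneg _) c0
  rw [mul_assoc]
  refine h3 _ k2 W' z i (P218PB.psi (W i) (W' i - W i)) (P218PB.psi1 (W i) (W' i - W i))
    ⟨P218PB.hasDerivAt_psi _ _, P218PB.continuous_psi1 _ _,
      fun v hv => P218PB.psi_of_le _ (by linarith [H.le', (h.1 i).1]),
      (P218PB.psi_self _ _).trans (by ring), fun v _ => (P218PB.abs_psi_sub _ _ _).trans ?_,
      fun v _ => (P218PB.abs_psi1_sub _ _ _).trans e2⟩ ((k1 k3 i).1.trans e1)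
    fun n v hv θ => ((k1 k3 i).2 n v hv θ).trans e1
  nlinarith [abs_nonneg (W' i - W i)]

/-- (D) the residual formula -/
theorem res_of [DecidableEq ι] {c' : Cst} (hc : c'.Le H.c)
    (hfam : (geo H 𝒞).Fam {W | Adm c'.w1 W} c'.dom (cfg H) (eD H) H.lam H.mo) :
    ∃ C' k c : ℝ, 0 < k ∧ 0 < c ∧
      P218TP.ResData (fun W z => (geo H 𝒞).act W (cfg H W z)) H.c.K c'.r c'.w1 C' k c := by
  have w1 := c'.w1_ge
  refine ⟨max (max 9 H.C0) (6400 * H.a0 + 3), min H.c.k 1, 2 * π, lt_min H.c.k_pos one_pos,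
    by positivity, fun W j hW hW' z hz => ?_⟩
  rw [← hc.K] at hz
  obtain ⟨k1, k2⟩ := Geo.Fam.inc_eq hfam (by linarith) (by rw [abs_one]; linarith) hW hW' hz
  refine ⟨_, fun v => P218TP.VW v (H.α (update W j v) z j),
    fun v => P218TP.YB v (P218TP.VW v (H.α (update W j v) z j)), k1, k2, fun v hv => ?_⟩
  have ok : H.c.Ok (update W j v) z :=
    hc.ok (Geo.seg_mem (by linarith) (by rw [abs_one]; linarith) hW hW' hz v hv)
  have k := H.cylSol _ z ok j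
  have t := H.tip _ z ok j
  have r := (cfg_at H _ z j _).res_std (geo H 𝒞) _ k.rg k.cls k.sol k.pin
  have d := k.dom
  have v1 : 1 ≤ v := by linarith [(hW j).1, hv.1]
  rw [update_self] at t r d
  refine P218TP.lev_of (by linarith) (le_trans (by norm_num) k.rg.big) d (min_le_right _ _)
    (le_max_of_le_left (le_max_left _ _)) (t.trans ?_) (r.trans ?_)
  · gcongr
    · exact le_max_of_le_left (le_max_right _ _)
    · exact min_le_left _ _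
  · gcongr
    exact le_max_right _ _

end Vale.Agent.P218WD
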