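import Vale.Agent.P218WD.Bd
import Vale.Agent.P218XI.Fr

/-! The natural boundary condition in momentum form and the radial momentum. -/

namespace Vale.Agent.P218WD
open Complex Filter Topology Vale.Agent.P218VA Vale.Agent.P218XI Vale.Agent.P218EN
open scoped Real Matrix

/-- the normalised Gram determinant -/
noncomputable def Gam (A ε h t p : ℂ) : ℂ :=
  (h ^ 2 + t ^ 2) / (1 + ε * h ^ 2) ^ 2 + A * (h * (h - p) / (1 + ε * h ^ 2) ^ 2) ^ 2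

/-- smallness of the coefficients and of the normalised one-jet -/
structure Sm (A ε η t p : ℂ) : Prop where
  A : ‖A‖ ≤ 1 / 100
  ε : ‖ε‖ ≤ 1 / 100
  η : ‖η‖ ≤ 1 / 100
  t : ‖t‖ ≤ 1 / 100
  p : ‖p‖ ≤ 1 / 100

section
variable {A ε η t p m e : ℂ}

theorem nr_lam (hε : ‖ε‖ ≤ 1 / 100) (hη : ‖η‖ ≤ 1 / 100) : Nr (1 + ε * (1 + η) ^ 2) (1 / 97) :=
  (Nr.one_add ((Nr.one_add hη).sq.small hε)).mono (by norm_num)

theorem nr_laminv (hε : ‖ε‖ ≤ 1 / 100) (hη : ‖η‖ ≤ 1 / 100) :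
    Nr (1 + ε * (1 + η) ^ 2)⁻¹ (1 / 96) := ((nr_lam hε hη).inv (by norm_num)).mono (by norm_num)

theorem nr_G (hη : ‖η‖ ≤ 1 / 100) (ht : ‖t‖ ≤ 1 / 100) : Nr ((1 + η) ^ 2 + t ^ 2) (1 / 49) := by
  have h1 : ‖t ^ 2‖ ≤ (1 / 100) ^ 2 := by rw [norm_pow]; gcongr
  exact ((Nr.one_add hη).sq.add h1).mono (by norm_num)

theorem nr_m (hε : ‖ε‖ ≤ 1 / 100) (hη : ‖η‖ ≤ 1 / 100) :
    Nr ((1 + η) ^ 2 / (1 + ε * (1 + η) ^ 2)) (1 / 20) :=
  ((Nr.one_add hη).sq.mul (nr_laminv hε hη)).mono (by norm_num)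

theorem Sm.lam_ne (h : Sm A ε η t p) : 1 + ε * (1 + η) ^ 2 ≠ 0 :=
  (nr_lam h.ε h.η).ne (by norm_num)

theorem Sm.nr_q (h : Sm A ε η t p) :
    Nr ((1 + η) * (1 + η - p) / (1 + ε * (1 + η) ^ 2) ^ 2) (1 / 19) := by
  rw [div_eq_mul_inv, ← inv_pow]
  exact (((Nr.one_add h.η).mul ((Nr.one_add h.η).sub h.p)).mul
    (nr_laminv h.ε h.η).sq).mono (by norm_num)

theorem Sm.nr_Gam (h : Sm A ε η t p) : Nr (Gam A ε (1 + η) t p) (1 / 18) := by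
  rw [Gam, div_eq_mul_inv, ← inv_pow]
  exact (((nr_G h.η h.t).mul (nr_laminv h.ε h.η).sq).add (h.nr_q.sq.small h.A)).mono (by norm_num)

theorem Sm.sq_bc (h : Sm A ε η t p) (hm : Nr m (1 / 20))
    (hB : pB ε (L2 A ε m - 1) η t p = 0) :
    Gam A ε (1 + η) t p * nu A ε m ^ 2 = ((1 + η) ^ 2 + t ^ 2) / (1 + ε * (1 + η) ^ 2) ^ 2 ∧
    (1 + η) * (1 + η - p) / (1 + ε * (1 + η) ^ 2) ^ 2 =
      kap A ε m * Complex.sqrt (Gam A ε (1 + η) t p) := by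
  have h1 := h.lam_ne
  have h2 := (nr_nu h.A h.ε hm).ne (by norm_num)
  have h3 := nu_sq A ε m
  rw [pB, L2_eq h.ε hm] at hB
  have h4 : ((1 + η) * (1 + η - p) / (1 + ε * (1 + η) ^ 2) ^ 2) ^ 2 * nu A ε m ^ 2 =
      kap A ε m ^ 2 * (((1 + η) ^ 2 + t ^ 2) / (1 + ε * (1 + η) ^ 2) ^ 2) := by
    generalize 1 + η = k at hB h1 ⊢
    generalize 1 + ε * k ^ 2 = l at hB h1 ⊢
    field_simp at hB ⊢
    linear_combination hB
  have h5 : ((1 + η) * (1 + η - p) / (1 + ε * (1 + η) ^ 2) ^ 2) ^ 2 =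
      kap A ε m ^ 2 * Gam A ε (1 + η) t p := by
    rw [h3] at h4
    rw [Gam]
    linear_combination h4
  refine ⟨?_, h.nr_q.eq_of_sq ((nr_kap h.A h.ε hm).mul h.nr_Gam.sqrt) (by norm_num) (by norm_num)
    (by rw [h5, mul_pow, P218IN.sqrt_sq'])⟩
  rw [h3]
  rw [Gam] at h5 ⊢
  linear_combination A * h5

theorem Sm.sqrt_bc (h : Sm A ε η t p) (hm : Nr m (1 / 20))
    (hB : pB ε (L2 A ε m - 1) η t p = 0) :
    Complex.sqrt (Gam A ε (1 + η) t p) * nu A ε m =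
      Complex.sqrt ((1 + η) ^ 2 + t ^ 2) / (1 + ε * (1 + η) ^ 2) := by
  refine (h.nr_Gam.sqrt.mul (nr_nu h.A h.ε hm)).eq_of_sq
    ((nr_G h.η h.t).sqrt.mul (nr_laminv h.ε h.η)) (by norm_num) (by norm_num) ?_
  rw [mul_pow, div_pow, P218IN.sqrt_sq', P218IN.sqrt_sq', (h.sq_bc hm hB).1]

end

section frame
variable {R : Matrix (Fin 3) (Fin 3) ℂ} (hR : Rᵀ * R = 1) {W : ℝ} (θ : ℝ) {A e η t p m : ℂ}

theorem rot_G (τ : ℂ) : (cylF.rot R hR).G θ τ = si τ := cylF_G θ τ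

theorem rot_sg : (cylF.rot R hR).sg θ = R.det := by
  have h := triple_mulVec R (cylF.γ θ) (cylF.n θ) (cylF.T θ)
  have h1 := cylF_sg θ
  rw [Frame.sg] at h1
  rw [h1, mul_one] at h
  exact h

theorem rot_X_om (W : ℝ) (τ : ℂ) :
    (cylF.rot R hR).X W θ τ = R *ᵥ ((2 * (√W : ℝ) : ℂ) • om τ θ) := by
  rw [Frame.rot_X, cylF_X, xiC_cyl]

theorem rot_b_omd (W : ℝ) {τ : ℂ} (h : 1 + τ ^ 2 ≠ 0) (τ' : ℂ) :
    (cylF.rot R hR).b W θ τ τ' = R *ᵥ ((2 * (√W : ℝ) : ℂ) • omd τ τ' θ) := by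
  rw [Frame.rot_b]
  congr 1
  rw [Frame.b, Frame.R_mulVec, cylF_G]
  funext i
  fin_cases i <;>
    simp [Frame.u, Frame.v, cylF_γ, cylF_n, cylF_T, e3c, ethc, tthc, omd, co, si, d1, rt] <;>
    field_simp <;> ring

theorem one_add_tau (h : Sm A (e ^ 2) η t p) : 1 + (e * (1 + η)) ^ 2 ≠ 0 := by
  rw [mul_pow]; exact h.lam_ne

theorem gram_cyl (hW : 0 < W) (hA : 16 * W ^ 2 * e ^ 2 * A = 1) (h : Sm A (e ^ 2) η t p) :
    gram ((cylF.rot R hR).a W θ (e * (1 + η)) (e * A * (p - (1 + η))))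
      ((cylF.rot R hR).b W θ (e * (1 + η)) (e * t)) =
      (4 * e * Complex.sqrt (Gam A (e ^ 2) (1 + η) t p)) ^ 2 := by
  have h1 := h.lam_ne
  rw [Frame.gram_eq _ _ _ _ hW (one_add_tau h), rot_G, mul_pow (4 * e), P218IN.sqrt_sq', Gam]
  simp only [d1, si, mul_pow e]
  generalize 1 + η = k at h1 ⊢
  generalize 1 + e ^ 2 * k ^ 2 = l at h1 ⊢
  field_simp
  linear_combination (4 * e ^ 2 * A * k ^ 2 * (k - p) ^ 2) * hA

theorem re_ar (he : Root e) (h : Sm A (e ^ 2) η t p) :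
    0 < (4 * e * Complex.sqrt (Gam A (e ^ 2) (1 + η) t p)).re := by
  have := he.re_mul (h.nr_Gam.sqrt.mono (by norm_num))
  rw [mul_assoc, show (4 : ℂ) = ((4 : ℝ) : ℂ) by simp, re_ofReal_mul]
  positivity

theorem gram_mem (hW : 0 < W) (hA : 16 * W ^ 2 * e ^ 2 * A = 1) (he : Root e)
    (h : Sm A (e ^ 2) η t p) :
    gram ((cylF.rot R hR).a W θ (e * (1 + η)) (e * A * (p - (1 + η))))
      ((cylF.rot R hR).b W θ (e * (1 + η)) (e * t)) ∈ slitPlane := by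
  rw [gram_cyl hR θ hW hA h]
  exact sq_mem_slitPlane (re_ar he h)

theorem ar_cyl (hW : 0 < W) (hA : 16 * W ^ 2 * e ^ 2 * A = 1) (he : Root e)
    (h : Sm A (e ^ 2) η t p) :
    ar ((cylF.rot R hR).a W θ (e * (1 + η)) (e * A * (p - (1 + η))))
      ((cylF.rot R hR).b W θ (e * (1 + η)) (e * t)) =
      4 * e * Complex.sqrt (Gam A (e ^ 2) (1 + η) t p) :=
  P218IN.sqrt_eq_of_sq (re_ar he h) (gram_cyl hR θ hW hA h).symm

/-- the natural boundary condition: the contact density is minus the derivative of the boundary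
action in the area -/
theorem con_cyl (hW : 0 < W) (hA : 16 * W ^ 2 * e ^ 2 * A = 1) (he : Root e)
    (h : Sm A (e ^ 2) η t p) (hm : Nr m (1 / 20)) (hB : pB (e ^ 2) (L2 A (e ^ 2) m - 1) η t p = 0) :
    con ((cylF.rot R hR).X W θ (e * (1 + η)))
      ((cylF.rot R hR).a W θ (e * (1 + η)) (e * A * (p - (1 + η))))
      ((cylF.rot R hR).b W θ (e * (1 + η)) (e * t)) * R.det * (2 * (√W : ℝ) : ℂ) ^ 3 =
      -BdA W (4 * π * e ^ 2 * m) := by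
  have h1 := h.lam_ne
  have h2 := (h.sq_bc hm hB).2
  have h3 := h.nr_Gam.sqrt.ne (by norm_num)
  have h4 := he.ne
  have h5 := rt_sq hW.le
  have h6 := det_sq_rot hR
  have hW' : (W : ℂ) ≠ 0 := ofReal_ne_zero.2 hW.ne'
  rw [BdA_eq he h.ε hm hA, con, ar_cyl hR θ hW hA he h, Frame.wt_X _ _ hW.le (one_add_tau h),
    Frame.X_triple _ _ _ _ hW (one_add_tau h), Frame.X_dot _ _ hW.le (one_add_tau h), rot_G,
    rot_sg, eq_div_of_mul_eq h3 h2.symm, ← rt]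
  simp only [d1, si, mul_pow e]
  have e1 : rt W ^ 4 = W ^ 2 := by rw [← h5]; ring
  generalize Complex.sqrt (Gam A (e ^ 2) (1 + η) t p) = g at h3 ⊢
  generalize 1 + η = k at h1 ⊢
  generalize 1 + e ^ 2 * k ^ 2 = l at h1 ⊢
  field_simp
  linear_combination (-(256 * rt W ^ 4 * e ^ 2 * A * (k - p) * k)) * h6 +
    (-(256 * e ^ 2 * A * (k - p) * k)) * e1 + (-(16 * (k - p) * k)) * hA

theorem b_dot (F : Frame) (hW : 0 ≤ W) {τ : ℂ} (h : 1 + τ ^ 2 ≠ 0) (τ' : ℂ) :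
    F.b W θ τ τ' ⬝ᵥ F.b W θ τ τ' = 4 * W * (d1 τ τ' ^ 2 + F.G θ τ ^ 2) := by
  rw [Frame.b, dot_rot (F.R_orth θ h), ← rt_sq hW, dot3]
  simp
  ring

theorem a_dot (F : Frame) (hW : 0 < W) {τ : ℂ} (h : 1 + τ ^ 2 ≠ 0) (τ' : ℂ) :
    F.a W θ τ τ' ⬝ᵥ F.X W θ τ = 2 := by
  have := rt_ne hW
  rw [Frame.a, Frame.X, dot_rot (F.R_orth θ h), dot3]
  simp
  field_simp

/-- the radial momentum under the natural boundary condition -/
theorem rad_cyl (hW : 0 < W) (hA : 16 * W ^ 2 * e ^ 2 * A = 1) (he : Root e)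
    (h : Sm A (e ^ 2) η t p) (hm : Nr m (1 / 20)) (hB : pB (e ^ 2) (L2 A (e ^ 2) m - 1) η t p = 0) :
    rad ((cylF.rot R hR).X W θ (e * (1 + η)))
      ((cylF.rot R hR).a W θ (e * (1 + η)) (e * A * (p - (1 + η))))
      ((cylF.rot R hR).b W θ (e * (1 + η)) (e * t)) =
      2 * cexp (-W) * e * nu A (e ^ 2) m *
        (Complex.sqrt ((1 + η) ^ 2 + t ^ 2) / (1 + e ^ 2 * (1 + η) ^ 2)) := by
  have h1 := h.lam_ne
  have h2 := (h.sq_bc hm hB).1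
  have h3 := h.nr_Gam.sqrt.ne (by norm_num)
  have h4 := he.ne
  have h5 := P218IN.sqrt_sq' (Gam A (e ^ 2) (1 + η) t p)
  have hW' : (W : ℂ) ≠ 0 := ofReal_ne_zero.2 hW.ne'
  have e1 : d1 (e * (1 + η)) (e * t) ^ 2 + si (e * (1 + η)) ^ 2 =
      4 * e ^ 2 * (((1 + η) ^ 2 + t ^ 2) / (1 + e ^ 2 * (1 + η) ^ 2) ^ 2) := by
    simp only [d1, si, mul_pow e]
    field_simp
    ring
  rw [rad, ar_cyl hR θ hW hA he h, Frame.wt_X _ _ hW.le (one_add_tau h),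
    b_dot _ _ hW.le (one_add_tau h), a_dot _ _ hW (one_add_tau h),
    Frame.X_dot _ _ hW.le (one_add_tau h), rot_G, e1, ← h2, ← h.sqrt_bc hm hB]
  generalize Complex.sqrt (Gam A (e ^ 2) (1 + η) t p) = g at h3 h5 ⊢
  rw [← h5]
  field_simp

theorem cc_tau (e h : ℂ) : P218VA.cc (e * h) = 2 * e ^ 2 * (h ^ 2 / (1 + e ^ 2 * h ^ 2)) := by
  rw [P218VA.cc, mul_pow]; ring

end frame

end Vale.Agent.P218WD
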