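import Vale.Agent.P218WD.JS
import Vale.Agent.P218CN.Fun

/-! The ends of a configuration. -/

open Set Filter Metric Topology Complex
open scoped Matrix Real

noncomputable section

namespace Vale.Agent.P218WD

open Vale.Agent.P218VA Vale.Agent.P218CO Vale.Agent.P218XI
open Vale.Agent.P218EN (WA xf ef Af Rg wEq_iff ep)

namespace CylEnd
variable {a W : ℝ} {α : ℂ} {J : Fin 6 → WA} (h : CylEnd a W α J)
include h

lemma pos : 0 < a := h.rg.base.pos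

lemma re {w : ℝ} (hw : w ∈ Icc a W) : 0 < (1 - α * w).re := (h.rg.pt hw).re_pos

lemma jetU : Jet2 (Icc a W) (U0 α J) (U1 α J) (U2 α J) (U11 α J) (U12 α J) (U22 α J) :=
  h.sol.elim fun _ h' => h'.elim fun _ hs => jet2_U h.pos (fun _ => h.re) hs.1.jet

lemma pj {p : ℝ × ℝ} (hp : p.1 ∈ Icc a W) :
    PJ p.1 (P218XI.kap p.1 * prof α p.1) (Af α p.1) (P218XI.kap p.1 * U0 α J p)
      (P218XI.kap p.1 * (U1 α J p - xf p.1 * U0 α J p)) (P218XI.kap p.1 * U2 α J p)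
      ((J 0).ev p.1 p.2) ((J 1).ev p.1 p.2) ((J 3).ev p.1 p.2) :=
  pj_of_base h.rg.base h.bd hp p.2

lemma ev_le (n : Fin 6) {w : ℝ} (hw : w ∈ Icc a W) (θ : ℝ) : ‖(J n).ev w θ‖ ≤ 1 :=
  (ev_le_base h.rg.base (h.bd n) hw θ).trans ((ed_le h.rg.base hw).trans (by norm_num))

omit h in
lemma sub : Icc (a + 6) W ⊆ Icc a W := Icc_subset_Icc_left (by linarith)

theorem jet : ∃ tww twθ tθθ, Jet2 (Icc (a + 6) W) (fun p => P218XI.kap p.1 * U0 α J p)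
    (fun p => P218XI.kap p.1 * (U1 α J p - xf p.1 * U0 α J p))
    (fun p => P218XI.kap p.1 * U2 α J p) tww twθ tθθ ∧ ∀ p : ℝ × ℝ, p.1 ∈ Icc (a + 6) W →
      PP (cylF.X p.1 p.2 (P218XI.kap p.1 * U0 α J p))
        (cylF.a p.1 p.2 (P218XI.kap p.1 * U0 α J p)
          (P218XI.kap p.1 * (U1 α J p - xf p.1 * U0 α J p)))
        (cylF.b p.1 p.2 (P218XI.kap p.1 * U0 α J p) (P218XI.kap p.1 * U2 α J p))
        (cylF.aa p.1 p.2 (P218XI.kap p.1 * U0 α J p)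
          (P218XI.kap p.1 * (U1 α J p - xf p.1 * U0 α J p)) (tww p))
        (cylF.ab p.1 p.2 (P218XI.kap p.1 * U0 α J p)
          (P218XI.kap p.1 * (U1 α J p - xf p.1 * U0 α J p)) (P218XI.kap p.1 * U2 α J p) (twθ p))
        (cylF.bb p.1 p.2 (P218XI.kap p.1 * U0 α J p) (P218XI.kap p.1 * U2 α J p) (tθθ p)) = 0 := by
  have k := jet2_kap (fun w hw => h.pos.trans_le hw.1) h.jetU
  refine ⟨_, _, _, ⟨k.j0.mono sub, k.j1.mono sub, k.j2.mono sub⟩, fun p hp => ?_⟩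
  obtain ⟨f, ξ, hs, hf⟩ := h.sol
  have h1 := isCyl_cylF.PP_U h.pos (fun _ => h.re) J (sub hp)
    (sm_of_base h.rg.base h.bd (sub hp) p.2).lam_ne
  rw [wEq_iff.1 hs.eq _ (sub hp), P218CN.ev_eq_zero fun k => hf k _ hp.1] at h1
  exact h1.trans (by simp)

theorem pj_U {p : ℝ × ℝ} (hp : p.1 ∈ Ioo a W) :
    (P218CO.pj (U0 α J) p).1 = (U0 α J p, U1 α J p, U2 α J p) := by
  obtain ⟨e1, e2, -⟩ := P218EF.pd_jet2 h.jetU (p := p) (by rwa [interior_Icc])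
  simp only [P218CO.pj, cj, e1, e2]

theorem cd_U {p : ℝ × ℝ} (hp : p.1 ∈ Ioo a W) : ContDiffAt ℝ 2 (U0 α J) p :=
  P218EF.contDiffAt_jet2 h.jetU (by rwa [interior_Icc])

theorem real (hα : α.im = 0) (hJ : ∀ n, WA.cj (J n) = J n) {p : ℝ × ℝ} (hp : p.1 ∈ Icc a W) :
    (P218XI.kap p.1 * U0 α J p).im = 0 ∧
      (P218XI.kap p.1 * (U1 α J p - xf p.1 * U0 α J p)).im = 0 ∧
      (P218XI.kap p.1 * U2 α J p).im = 0 := by
  have h1 : ∀ n, ∃ r : ℝ, (J n).ev p.1 p.2 = r := fun n =>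
    ⟨_, (conj_eq_iff_re.1 (by rw [← WA.ev_cj, hJ])).symm⟩
  choose r hr using h1
  have h2 := h.re hp
  obtain ⟨x, rfl⟩ : ∃ x : ℝ, α = x := ⟨α.re, Complex.ext rfl hα⟩
  have h3 : (1 - x * p.1 : ℂ) = ((1 - x * p.1 : ℝ) : ℂ) := by push_cast; rfl
  have h4 : prof x p.1 = (√(1 - x * p.1) : ℝ) := by
    rw [h3, ofReal_re] at h2
    rw [prof, h3]
    exact P218IN.sqrt_eq_of_sq (by rw [ofReal_re]; exact Real.sqrt_pos.2 h2)
      (by rw [← ofReal_pow, Real.sq_sqrt h2.le])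
  simp only [U0, U1, U2, h4, hr, P218XI.kap, Af, xf]
  norm_cast

end CylEnd

/-- the first order jets of `U` and of the angular coordinate -/
def Tj (z : (ℂ × ℝ) × T3 ℂ) : T3 ℂ × T3 ℂ :=
  let u : T3 ℂ := (prof z.1.1 z.1.2 * (1 + z.2.1), prof z.1.1 z.1.2 * (Af z.1.1 z.1.2 * z.2.2.2 -
    (Af z.1.1 z.1.2 - xf z.1.2) * (1 + z.2.1)), prof z.1.1 z.1.2 * z.2.2.1)
  (u, P218XI.kap z.1.2 * u.1, P218XI.kap z.1.2 * (u.2.1 - xf z.1.2 * u.1),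
    P218XI.kap z.1.2 * u.2.2)

lemma contDiffAt_Tj {z : (ℂ × ℝ) × T3 ℂ} (hw : 0 < z.1.2) (hv : 0 < (1 - z.1.1 * z.1.2).re) :
    ContDiffAt ℝ 1 Tj z := by
  have h0 : ContDiffAt ℝ 1 (fun z : (ℂ × ℝ) × T3 ℂ => (z.1.2 : ℂ)) z :=
    ofRealCLM.contDiff.contDiffAt.comp z (by fun_prop)
  have h1 : ContDiffAt ℝ 1 (fun z : (ℂ × ℝ) × T3 ℂ => 1 - z.1.1 * z.1.2) z := by fun_prop
  have h2 : (2 * z.1.2 : ℂ) ≠ 0 := mul_ne_zero two_ne_zero (ofReal_ne_zero.2 hw.ne')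
  have hp : ContDiffAt ℝ 1 (fun z : (ℂ × ℝ) × T3 ℂ => prof z.1.1 z.1.2) z :=
    (contDiffAt_sqrt' (Or.inl hv)).comp z h1
  have hA : ContDiffAt ℝ 1 (fun z : (ℂ × ℝ) × T3 ℂ => Af z.1.1 z.1.2) z :=
    contDiffAt_cinv (by fun_prop) (mul_ne_zero h2 (slitPlane_ne_zero (Or.inl hv)))
  have hx : ContDiffAt ℝ 1 (fun z : (ℂ × ℝ) × T3 ℂ => xf z.1.2) z :=
    contDiffAt_cinv (by fun_prop) h2
  have hk : ContDiffAt ℝ 1 (fun z : (ℂ × ℝ) × T3 ℂ => P218XI.kap z.1.2) z :=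
    ContDiffAt.comp (g := P218XI.kap) z ((contDiffAt_kap hw).of_le one_le_inf) (by fun_prop)
  have k0 := hp.mul (by fun_prop : ContDiffAt ℝ 1 (fun z : (ℂ × ℝ) × T3 ℂ => 1 + z.2.1) z)
  have k1 := hp.mul ((hA.mul contDiffAt_snd.snd.snd).sub ((hA.sub hx).mul
    (contDiffAt_const (c := 1) |>.add contDiffAt_snd.fst)))
  have k2 := hp.mul contDiffAt_snd.snd.fst
  exact (k0.prodMk (k1.prodMk k2)).prodMk
    ((hk.mul k0).prodMk ((hk.mul (k1.sub (hx.mul k0))).prodMk (hk.mul k2)))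

theorem CylEnd.exists_lip {a W : ℝ} {α : ℂ} {J : Fin 6 → WA} (h : CylEnd a W α J) :
    ∃ L ρ : ℝ, 0 ≤ L ∧ 0 < ρ ∧ ∀ δ < ρ, ∀ w ∈ Icc a W, ∀ (θ w' : ℝ) (α' : ℂ) (J' : Fin 6 → WA),
      |w' - w| ≤ δ → ‖α' - α‖ ≤ δ → (∀ n, ‖(J' n).ev w' θ - (J n).ev w θ‖ ≤ δ) →
      ‖(U0 α' J' (w', θ), U1 α' J' (w', θ), U2 α' J' (w', θ)) -
        (U0 α J (w, θ), U1 α J (w, θ), U2 α J (w, θ))‖ ≤ L * δ ∧
      ‖P218XI.kap w' * U0 α' J' (w', θ) - P218XI.kap w * U0 α J (w, θ)‖ ≤ L * δ ∧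
      ‖P218XI.kap w' * (U1 α' J' (w', θ) - xf w' * U0 α' J' (w', θ)) -
        P218XI.kap w * (U1 α J (w, θ) - xf w * U0 α J (w, θ))‖ ≤ L * δ ∧
      ‖P218XI.kap w' * U2 α' J' (w', θ) - P218XI.kap w * U2 α J (w, θ)‖ ≤ L * δ := by
  obtain ⟨L, ρ, h1, h2, h3⟩ := exists_lip_near (((isCompact_singleton (x := α)).prod
    (isCompact_Icc (a := a) (b := W))).prod (isCompact_closedBall (0 : T3 ℂ) 1)) (f := Tj) (by
      rintro ⟨⟨_, w⟩, k⟩ ⟨⟨rfl, hw⟩, -⟩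
      exact contDiffAt_Tj (h.pos.trans_le hw.1) (h.re hw))
  refine ⟨L, ρ, h1, h2, fun δ hδ w hw θ w' α' J' b1 b2 b3 => ?_⟩
  have b4 : ‖(((α', w'), (J' 0).ev w' θ, (J' 1).ev w' θ, (J' 3).ev w' θ) : (ℂ × ℝ) × T3 ℂ) -
      ((α, w), (J 0).ev w θ, (J 1).ev w θ, (J 3).ev w θ)‖ ≤ δ := by
    simp [Prod.norm_def, b1, b2, b3]
  have k := (h3 ((α, w), (J 0).ev w θ, (J 1).ev w θ, (J 3).ev w θ) ⟨⟨rfl, hw⟩, 
    by simp [Prod.norm_def, h.ev_le _ hw]⟩ _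
    (mem_ball_iff_norm.2 (b4.trans_lt hδ)) _ (mem_ball_self h2)).trans
      (mul_le_mul_of_nonneg_left b4 h1)
  exact ⟨(norm_fst_le _).trans k, ((norm_fst_le _).trans (norm_snd_le _)).trans k,
    (((norm_fst_le _).trans (norm_snd_le _)).trans (norm_snd_le _)).trans k,
    (((norm_snd_le _).trans (norm_snd_le _)).trans (norm_snd_le _)).trans k⟩

/-! ### conical ends -/

theorem exists_cone_gram (F : Frame) {c : ℝ} (hc : 0 < c) (hF : F.c = c) : ∃ ρ > 0,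
    ∀ (w θ : ℝ) (t tw tθ : ℂ), 0 < w → ‖t‖ < ρ → 2 * w * ‖tw‖ < ρ → ‖tθ‖ < ρ →
      c ^ 2 ≤ (gram (F.a w θ t tw) (F.b w θ t tθ)).re := by
  have hK : IsCompact (range F.β) :=
    Function.Periodic.compact_of_continuous F.β_per (by positivity) F.β_sm.continuous
  obtain ⟨ρ, h0, h⟩ := exists_ev_near (hK.prod (isCompact_singleton (x := (0 : T3 ℂ))))
    (P := fun z => 1 + z.2.1 ^ 2 ≠ 0 ∧ c ^ 2 <
      (4 * P218CN.dd (c : ℂ) z.1 z.2.1 z.2.2.1 z.2.2.2 / P218CN.lam z.2.1 ^ 4).re) (by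
      rintro ⟨b, _⟩ ⟨-, rfl⟩
      refine (ContinuousAt.eventually_ne (by fun_prop) (by simp)).and
        (continuousAt_const.eventually_lt (continuous_re.continuousAt.comp ?_) ?_)
      · unfold P218CN.dd P218CN.gg P218CN.lam
        fun_prop (disch := simp)
      · simpa [P218CN.dd, P218CN.gg, P218CN.lam, ← ofReal_pow] using
          (by nlinarith : c ^ 2 < 4 * c ^ 2))
  refine ⟨ρ, h0, fun w θ t tw tθ hw h1 h2 h3 => ?_⟩
  obtain ⟨k1, k2⟩ := h (F.β θ, 0) ⟨⟨θ, rfl⟩, rfl⟩ (F.β θ, t, tθ, 2 * w * tw)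
    (by simpa [Prod.norm_def, dist_eq_norm, h0, h1, h3, abs_of_pos hw] using h2)
  rw [F.gram_dd θ tw tθ hw k1, hF]
  exact k2.le

open Vale.Agent.P218GA in
theorem exists_coneOK {S : Set E3} {w : E3 → ℝ} {δ C : ℝ} {ι κ M : Type} [TopologicalSpace M]
    [ChartedSpace E2 M] (m : Model S w δ C ι κ M) (k : κ) :
    ∀ᶠ s in atTop, ConeOK (coneF (m.L k)) (fun p => (m.t k p : ℂ)) s := by
  obtain ⟨ρ, h0, h⟩ := exists_cone_gram (coneF (m.L k)) (m.L k).c_pos rfl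
  obtain ⟨ε, e0, e1, e2⟩ : ∃ ε > 0, ε ≤ 1 / 4 ∧ 4 * ε < ρ :=
    ⟨min (1 / 4) (ρ / 8), by positivity, min_le_left _ _, by linarith [min_le_right (1 / 4) (ρ / 8)]⟩
  obtain ⟨W0, b0⟩ := m.t_lim k 0 0 ε e0
  obtain ⟨W1, b1⟩ := m.t_lim k 1 0 ε e0
  obtain ⟨W2, b2⟩ := m.t_lim k 0 1 ε e0
  filter_upwards [eventually_ge_atTop W0, eventually_ge_atTop W1, eventually_ge_atTop W2,
    eventually_gt_atTop m.w0] with s s0 s1 s2 s3
  refine ⟨_, pow_pos (m.L k).c_pos 2, ε, e0, fun p hp u uw uθ h1 h2 h3 => ?_⟩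
  have hw : 0 < p.1 := by linarith [m.one_le]
  have hd := (m.t_smooth k p (s3.trans_le hp)).differentiableAt (by simp)
  have k0 : ‖(m.t k p : ℂ) + u‖ ≤ 2 * ε := (norm_add_le _ _).trans (by
    have := b0 p (s0.trans hp)
    simp only [pow_zero, one_mul, Function.iterate_zero, id] at this
    rw [norm_real]; linarith)
  have k1 : p.1 * ‖pd (fun p => (m.t k p : ℂ)) (1, 0) p + uw‖ ≤ 2 * ε := by
    have := b1 p (s1.trans hp)
    simp only [pow_one, Function.iterate_zero, Function.iterate_one, id, norm_mul,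
      Real.norm_of_nonneg hw.le] at this
    have e := pd_clm ofRealCLM hd (1, 0)
    simp only [ofRealCLM_apply] at e
    refine (mul_le_mul_of_nonneg_left (norm_add_le _ _) hw.le).trans ?_
    rw [e, norm_real, mul_add]
    exact (add_le_add this h2).trans (by linarith)
  have k2 : ‖pd (fun p => (m.t k p : ℂ)) (0, 1) p + uθ‖ ≤ 2 * ε := by
    have := b2 p (s2.trans hp)
    simp only [pow_zero, one_mul, Function.iterate_zero, Function.iterate_one, id] at this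
    have e := pd_clm ofRealCLM hd (0, 1)
    simp only [ofRealCLM_apply] at e
    refine (norm_add_le _ _).trans ?_
    rw [e, norm_real]
    exact (add_le_add this h3).trans (by linarith)
  exact ⟨⟨by linarith, by linarith, by linarith⟩,
    h _ _ _ _ _ hw (by linarith) (by linarith) (by linarith)⟩

end Vale.Agent.P218WD
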