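import Vale.Agent.P218WD.Nr
import Vale.Agent.P218EN.Poly
import Mathlib.Analysis.Complex.SqrtDeriv

/-! The boundary action as a function of the level and of the enclosed spherical area. -/

namespace Vale.Agent.P218WD
open Complex Filter Topology Asymptotics
open scoped Real

/-- the argument of the root in `sb` -/
noncomputable def s2 (a : ℂ) : ℂ := 2 * (a / (2 * π)) - (a / (2 * π)) ^ 2

/-- sine of the radius of the spherical cap of area `a` -/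
noncomputable def sb (a : ℂ) : ℂ := Complex.sqrt (s2 a)

/-- the boundary action -/
noncomputable def Bd (W a : ℂ) : ℂ := 4 * π * cexp (-W) * (sb a - 1 / (8 * W ^ 2 * sb a))

/-- its derivative in the area -/
noncomputable def BdA (W a : ℂ) : ℂ :=
  2 * cexp (-W) * ((1 - a / (2 * π)) / sb a * (1 + 1 / (8 * W ^ 2 * sb a ^ 2)))

/-- its derivative in the level -/
noncomputable def BdW (W a : ℂ) : ℂ :=
  4 * π * cexp (-W) * (-sb a + 1 / (8 * W ^ 2 * sb a) + 1 / (4 * W ^ 3 * sb a))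

theorem pi_ne : (π : ℂ) ≠ 0 := ofReal_ne_zero.2 Real.pi_ne_zero

theorem sb_ne {a : ℂ} (h : s2 a ∈ slitPlane) : sb a ≠ 0 := fun h0 => by
  have := P218IN.sqrt_sq' (s2 a)
  rw [← sb, h0] at this
  exact slitPlane_ne_zero h (by rw [← this]; ring)

theorem hasDerivAt_sb {a : ℂ} (h : s2 a ∈ slitPlane) :
    HasDerivAt sb ((1 - a / (2 * π)) / (2 * π * sb a)) a := by
  have h1 : HasDerivAt (fun a : ℂ => a / (2 * π)) (1 / (2 * π)) a := (hasDerivAt_id a).div_const _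
  have h2 : HasDerivAt s2 _ a := (h1.const_mul 2).sub (h1.pow 2)
  refine ((Complex.hasStrictDerivAt_sqrt h).hasDerivAt.comp a h2).congr_deriv ?_
  have h3 := sb_ne h
  have h4 := pi_ne
  have e : s2 a ^ (-1 / 2 : ℂ) = (sb a)⁻¹ := by
    rw [sb, Complex.sqrt, ← cpow_neg]
    norm_num
  rw [e]
  push_cast
  field_simp

theorem hasFDerivAt_Bd {W a : ℂ} (hW : W ≠ 0) (h : s2 a ∈ slitPlane) :
    HasFDerivAt (fun q : ℂ × ℂ => Bd q.1 q.2)
      (BdW W a • ContinuousLinearMap.fst ℂ ℂ ℂ + BdA W a • ContinuousLinearMap.snd ℂ ℂ ℂ)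
      (W, a) := by
  have h3 := sb_ne h
  have h4 := pi_ne
  have k1 : HasFDerivAt (fun q : ℂ × ℂ => q.1) (ContinuousLinearMap.fst ℂ ℂ ℂ) (W, a) :=
    hasFDerivAt_fst
  have k2 := (hasDerivAt_sb h).comp_hasFDerivAt (W, a)
    (hasFDerivAt_snd (𝕜 := ℂ) (p := (W, a)))
  have k3 := (hasDerivAt_inv (x := 8 * W ^ 2 * sb a)
    (mul_ne_zero (mul_ne_zero (by norm_num) (pow_ne_zero 2 hW)) h3)).comp_hasFDerivAt (W, a)
    (((k1.pow 2).const_mul 8).mul k2)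
  have k4 := (k1.neg.cexp.const_mul (4 * π)).mul (k2.sub k3)
  refine (k4.congr_fderiv (ContinuousLinearMap.ext fun v => ?_)).congr_of_eventuallyEq
    (Eventually.of_forall fun q => by simp [Bd])
  simp only [BdW, BdA]
  simp
  field_simp
  ring

theorem differentiableAt_Bd {E : Type*} [NormedAddCommGroup E] [NormedSpace ℂ E] {W : ℂ}
    {a : E → ℂ} {x : E} (hW : W ≠ 0) (h : s2 (a x) ∈ slitPlane) (ha : DifferentiableAt ℂ a x) :
    DifferentiableAt ℂ (fun y => Bd W (a y)) x :=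
  DifferentiableAt.comp (g := fun q : ℂ × ℂ => Bd q.1 q.2) (f := fun y => (W, a y)) x
    (hasFDerivAt_Bd hW h).differentiableAt ((differentiableAt_const W).prodMk ha)

/-- first order expansion of the boundary action along a family -/
theorem Bd_expansion {α : Type*} {l : Filter α} {δ : α → ℝ} {W a : ℂ} {W' a' : α → ℂ}
    (hW : W ≠ 0) (h : s2 a ∈ slitPlane) (hδ : Tendsto δ l (𝓝 0))
    (h1 : (fun n => W' n - W) =O[l] δ) (h2 : (fun n => a' n - a) =O[l] δ) :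
    (fun n => Bd (W' n) (a' n) - Bd W a - (BdW W a * (W' n - W) + BdA W a * (a' n - a)))
      =o[l] δ := by
  have h3 : (fun n => ((W' n, a' n) : ℂ × ℂ) - (W, a)) =O[l] δ := h1.prod_left h2
  have h4 : Tendsto (fun n => ((W' n, a' n) : ℂ × ℂ)) l (𝓝 (W, a)) :=
    tendsto_sub_nhds_zero_iff.1 (h3.trans_tendsto hδ)
  exact (((hasFDerivAt_Bd hW h).isLittleO.comp_tendsto h4).trans_isBigO h3).congr_left
    fun n => by simp

theorem im_sb {a : ℂ} (ha : a.im = 0) (h : 0 ≤ (s2 a).re) : (sb a).im = 0 := by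
  obtain ⟨x, rfl⟩ : ∃ x : ℝ, a = x := ⟨a.re, Complex.ext rfl (by simpa using ha)⟩
  have e : s2 x = ((2 * (x / (2 * π)) - (x / (2 * π)) ^ 2 : ℝ) : ℂ) := by simp [s2]
  rw [e, ofReal_re] at h
  rw [sb, e, Complex.sqrt, show (2⁻¹ : ℂ) = ((2⁻¹ : ℝ) : ℂ) by simp, ← ofReal_cpow h, ofReal_im]

theorem im_Bd (W : ℝ) {a : ℂ} (ha : a.im = 0) (h : 0 ≤ (s2 a).re) : (Bd W a).im = 0 := by
  obtain ⟨x, hx⟩ : ∃ x : ℝ, sb a = x := ⟨(sb a).re, Complex.ext rfl (by simpa using im_sb ha h)⟩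
  have e : Bd W a = ((4 * π * Real.exp (-W) * (x - 1 / (8 * W ^ 2 * x)) : ℝ) : ℂ) := by
    simp [Bd, hx]
  rw [e, ofReal_im]

/-! ### Values at the area `4 π e ^ 2 m` -/

/-- the normalised radius -/
noncomputable def mu (ε m : ℂ) : ℂ := Complex.sqrt (m * (1 - ε * m))

/-- the normalised contact angle -/
noncomputable def kap (A ε m : ℂ) : ℂ := (1 - 2 * ε * m) * (1 + A / (2 * mu ε m ^ 2)) / mu ε m

/-- the normalised cosine of the contact angle -/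
noncomputable def nu (A ε m : ℂ) : ℂ := Complex.sqrt (1 - A * kap A ε m ^ 2)

section
variable {A ε m e : ℂ}

theorem nr_mu (hε : ‖ε‖ ≤ 1 / 100) (hm : Nr m (1 / 20)) : Nr (mu ε m) (1 / 16) :=
  (hm.mul (Nr.one_sub (hm.small hε))).sqrt.mono (by norm_num)

theorem mu_sq (ε m : ℂ) : mu ε m ^ 2 = m * (1 - ε * m) := P218IN.sqrt_sq' _

theorem norm_div_mu (hA : ‖A‖ ≤ 1 / 100) (hε : ‖ε‖ ≤ 1 / 100) (hm : Nr m (1 / 20)) :
    ‖A / (2 * mu ε m ^ 2)‖ ≤ 1 / 150 := by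
  have h1 := ((nr_mu hε hm).sq.inv (by norm_num)).small hA
  rw [show A / (2 * mu ε m ^ 2) = A * (mu ε m ^ 2)⁻¹ / 2 by ring, norm_div]
  norm_num at h1 ⊢
  linarith

theorem nr_kap (hA : ‖A‖ ≤ 1 / 100) (hε : ‖ε‖ ≤ 1 / 100) (hm : Nr m (1 / 20)) :
    Nr (kap A ε m) (1 / 10) := by
  have h1 : ‖2 * ε * m‖ ≤ 2 * (1 / 100 * (1 + 1 / 20)) := by
    rw [mul_assoc, norm_mul, Complex.norm_two]
    exact mul_le_mul_of_nonneg_left (hm.small hε) zero_le_two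
  exact (((Nr.one_sub h1).mul (Nr.one_add (norm_div_mu hA hε hm))).mul
    ((nr_mu hε hm).inv (by norm_num))).mono (by norm_num)

theorem nr_nu2 (hA : ‖A‖ ≤ 1 / 100) (hε : ‖ε‖ ≤ 1 / 100) (hm : Nr m (1 / 20)) :
    Nr (1 - A * kap A ε m ^ 2) (1 / 80) :=
  (Nr.one_sub ((nr_kap hA hε hm).sq.small hA)).mono (by norm_num)

theorem nr_nu (hA : ‖A‖ ≤ 1 / 100) (hε : ‖ε‖ ≤ 1 / 100) (hm : Nr m (1 / 20)) :
    Nr (nu A ε m) (1 / 80) := (nr_nu2 hA hε hm).sqrt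

theorem nu_sq (A ε m : ℂ) : nu A ε m ^ 2 = 1 - A * kap A ε m ^ 2 := P218IN.sqrt_sq' _

theorem L2_eq (hε : ‖ε‖ ≤ 1 / 100) (hm : Nr m (1 / 20)) :
    P218EN.L2 A ε m = kap A ε m ^ 2 / nu A ε m ^ 2 := by
  have h1 := (nr_mu hε hm).ne (by norm_num)
  rw [nu_sq, P218EN.L2, ← mu_sq, kap]
  congr 1 <;> field_simp

theorem s2_eq (e m : ℂ) : s2 (4 * π * e ^ 2 * m) = (2 * e * mu (e ^ 2) m) ^ 2 := by
  have := pi_ne
  rw [mul_pow, mu_sq, s2]
  field_simp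
  ring

theorem re_emu (he : Root e) (hε : ‖e ^ 2‖ ≤ 1 / 100) (hm : Nr m (1 / 20)) :
    0 < (2 * e * mu (e ^ 2) m).re := by
  have := he.re_mul ((nr_mu hε hm).mono (by norm_num))
  rw [mul_assoc, show (2 : ℂ) = ((2 : ℝ) : ℂ) by simp, re_ofReal_mul]
  positivity

theorem s2_mem (he : Root e) (hε : ‖e ^ 2‖ ≤ 1 / 100) (hm : Nr m (1 / 20)) :
    s2 (4 * π * e ^ 2 * m) ∈ slitPlane := by
  rw [s2_eq]
  exact sq_mem_slitPlane (re_emu he hε hm)

theorem sb_eq (he : Root e) (hε : ‖e ^ 2‖ ≤ 1 / 100) (hm : Nr m (1 / 20)) :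
    sb (4 * π * e ^ 2 * m) = 2 * e * mu (e ^ 2) m :=
  P218IN.sqrt_eq_of_sq (re_emu he hε hm) (s2_eq e m).symm

theorem BdA_eq {W : ℂ} (he : Root e) (hε : ‖e ^ 2‖ ≤ 1 / 100) (hm : Nr m (1 / 20))
    (hA : 16 * W ^ 2 * e ^ 2 * A = 1) :
    BdA W (4 * π * e ^ 2 * m) = cexp (-W) * kap A (e ^ 2) m / e := by
  have h1 := (nr_mu hε hm).ne (by norm_num)
  have h2 := he.ne
  have h3 := pi_ne
  have hW : W ≠ 0 := by rintro rfl; simp at hA
  have h4 : A = 1 / (16 * W ^ 2 * e ^ 2) := by field_simp; linear_combination hA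
  rw [BdA, sb_eq he hε hm, kap, h4]
  field_simp
  ring

theorem norm_Bd_le {W : ℝ} (hW : 0 < W) (he : Root e) (hε : ‖e ^ 2‖ ≤ 1 / 100)
    (hm : Nr m (1 / 20)) (hA : 16 * W ^ 2 * e ^ 2 * A = 1) (hA' : ‖A‖ ≤ 1 / 100) :
    ‖Bd W (4 * π * e ^ 2 * m)‖ ≤ 4 * Real.exp (-W) := by
  have h0 := nr_mu hε hm
  have h1 := h0.ne (by norm_num)
  have h2 := he.ne
  have hW' : (W : ℂ) ≠ 0 := ofReal_ne_zero.2 hW.ne'
  have h4 : A = 1 / (16 * W ^ 2 * e ^ 2) := by field_simp; linear_combination hA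
  have e1 : Bd W (4 * π * e ^ 2 * m) =
      8 * π * cexp (-W) * (e * (mu (e ^ 2) m * (1 - A / (2 * mu (e ^ 2) m ^ 2)))) := by
    rw [Bd, sb_eq he hε hm, h4]
    field_simp
    ring
  have h5 : ‖e‖ ≤ 1 / 10 := by
    refine le_of_sq_le_sq ?_ (by norm_num)
    rw [← norm_pow]
    linarith
  have h6 := (h0.mul (Nr.one_sub (norm_div_mu hA' hε hm))).small h5
  have h7 : ‖cexp (-W)‖ = Real.exp (-W) := by rw [norm_exp]; simp
  rw [e1, norm_mul, norm_mul, h7, norm_mul, norm_real, Real.norm_of_nonneg Real.pi_pos.le]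
  have h8 := Real.pi_le_four
  have h9 := Real.exp_pos (-W)
  calc _ ≤ 8 * 4 * Real.exp (-W) * (1 / 8) := by
        rw [Complex.norm_ofNat]
        gcongr
        linarith
    _ = _ := by ring

end

end Vale.Agent.P218WD
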