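import Vale.Agent.P218WD.JS

/-! The glued function and the surface on the core. -/

open Set Filter Metric Topology Complex
open scoped Matrix

noncomputable section

set_option linter.unusedSectionVars false

namespace Vale.Agent.P218WD

open Vale.Agent.P218VA Vale.Agent.P218CO Vale.Agent.P218MP Vale.Agent.P272.K.LIN
open Vale.Agent.P218GA (pol)

variable {M : Type} [TopologicalSpace M] [ChartedSpace E2 M] [T2Space M] [CompactSpace M]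
  [RSm E2 M] [MeasurableSpace M] [BorelSpace M]

section glue
variable {σ : Type} {𝓔 : Ends σ M} {𝒞 : Cov E2 M} {a hi : ℝ} {x : M}

lemma coreK_reg (hx : x ∈ coreK 𝓔.φ hi) : x ∈ 𝓔.reg :=
  Ends.below_reg (a := hi + 1) (coreK_subset_coreO (lt_add_one hi) hx)

lemma coreK_cases (lo : ℝ) (hx : x ∈ coreK 𝓔.φ hi) : x ∈ 𝓔.below lo ∨
    ∃ j, ∃ p : ℝ × ℝ, 𝓔.w0 < p.1 ∧ p.1 ∈ Icc lo hi ∧ x = 𝓔.Y j p := by
  refine or_iff_not_imp_left.2 fun h => ?_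
  simp only [Ends.below, mem_ofPred_eq, not_forall, not_lt] at h
  obtain ⟨j, hj, h⟩ := h
  obtain ⟨p, hp, -, rfl⟩ := Ends.exists_Y hj (Ends.ne_zero_of_reg hj (coreK_reg hx))
  have h1 := hx j hj
  rw [Ends.φ_Y j hp, P218MP.norm_pol, Real.exp_le_exp, neg_le_neg_iff] at h h1
  exact ⟨j, p, hp, ⟨h, h1⟩, rfl⟩

variable [Fintype σ] {v : M → ℂ} {μ : σ → ℝ × ℝ → ℂ}

lemma glue_ev (ha : 𝓔.w0 < a) (hx : x ∈ 𝓔.below (a + 3)) : 𝓔.glue a v μ =ᶠ[𝓝 x] v :=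
  eventually_of_mem ((Ends.isOpen_below (by linarith)).mem_nhds hx) fun _ => Ends.glue_below

lemma glue_ev_Y {j : σ} (hμ : Per (μ j)) {p : ℝ × ℝ} (hp : 𝓔.w0 < p.1) :
    (fun q => 𝓔.glue a v μ (𝓔.Y j q)) =ᶠ[𝓝 p] fun q =>
      ((1 - st (a + 5) q.1 : ℝ) : ℂ) * v (𝓔.Y j q) + (st (a + 3) q.1 : ℝ) * μ j q :=
  (Ends.ev_w0 hp).mono fun _ => Ends.glue_Y hμ

lemma glue_hi {j : σ} (hμ : Per (μ j)) (ha : 𝓔.w0 < a) {p : ℝ × ℝ} (hp : a + 6 ≤ p.1) :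
    𝓔.glue a v μ (𝓔.Y j p) = μ j p := by
  rw [Ends.glue_Y hμ (by linarith), st_one (by linarith), st_one (by linarith)]
  simp

lemma cd_mul_fst {χ : ℝ → ℝ} (hχ : ContDiff ℝ 2 χ) {f : ℝ × ℝ → ℂ} {p : ℝ × ℝ}
    (hf : ContDiffAt ℝ 2 f p) : ContDiffAt ℝ 2 (fun q : ℝ × ℝ => (χ q.1 : ℂ) * f q) p :=
  (ofRealCLM.contDiff.comp (hχ.comp contDiff_fst)).contDiffAt.mul hf

lemma ck_glue (ha : 𝓔.w0 < a) (hv : ∀ x, CkAt 2 v x) (hμ : ∀ j, Col a (μ j)) (hhi : hi < a + 9)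
    (hx : x ∈ coreK 𝓔.φ hi) : CkAt 2 (𝓔.glue a v μ) x := by
  rcases coreK_cases (a + 3) hx with h | ⟨j, p, hp, h, rfl⟩
  · exact (hv x).congr (glue_ev ha h)
  · exact Ends.ckAt_Y P218VA.two_le_inf hp (((cd_mul_fst (contDiff_st2' _)
      (Ends.contDiffAt_Y hp (hv _))).add (cd_mul_fst (contDiff_st2 _)
        ((hμ j).cd p ⟨by linarith [h.1], by linarith [h.2]⟩))).congr_of_eventuallyEq
      (glue_ev_Y (hμ j).per hp))

lemma norm_jm1_le (c j : T3 ℂ) : ‖jm1 c j‖ ≤ 2 * ‖c‖ * ‖j‖ := by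
  have c1 := norm_fst_le c
  have c2 := (norm_fst_le c.2).trans (norm_snd_le c)
  have j1 := norm_fst_le j
  have j2 := (norm_fst_le j.2).trans (norm_snd_le j)
  have j3 := (norm_snd_le j.2).trans (norm_snd_le j)
  have p : 0 ≤ ‖c‖ * ‖j‖ := by positivity
  refine max_le ((norm_mul_le_of_le c1 j1).trans (by linarith)) (max_le
    ((norm_add_le_of_le (norm_mul_le_of_le c1 j2) (norm_mul_le_of_le c2 j1)).trans (by linarith))
    ((norm_mul_le_of_le c1 j3).trans (by linarith)))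

variable (𝓔 𝒞) in
theorem exists_js_glue (ha : 𝓔.w0 < a) (hhi : hi < a + 9) : ∃ C, 0 ≤ C ∧
    ∀ (v : VC 𝒞) (μ : σ → ℝ × ℝ → ℂ) (δ : ℝ), ‖v‖ ≤ δ → (∀ j, Col a (μ j)) →
      (∀ j (p : ℝ × ℝ), p.1 ∈ Icc (a + 3) hi → ‖(pj (μ j) p).1‖ ≤ δ) →
      JS 𝒞 (coreK 𝓔.φ hi) (𝓔.glue a (fnC v) μ) (C * δ) := by
  have k1 : ∀ x ∈ univ, CkAt 1 (fun x => ((𝓔.core (a + 5) x : ℝ) : ℂ)) x := fun x _ =>
    ((CkFn.ckAt (Ends.core_ck (by linarith)) x).ofReal).of_le one_le_inf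
  obtain ⟨C1, p1, h1⟩ := exists_js (𝒞 := 𝒞) isCompact_univ k1
  choose C2 p2 h2 using fun j => exists_js_polar (𝒞 := 𝒞) 𝓔 j hi (lo := a + 3) (by linarith)
  obtain ⟨C3, h3⟩ := (isCompact_Icc (a := a + 3) (b := hi)).exists_bound_of_continuousOn
    (continuous_d012 (contDiff_st2 (a + 3))).continuousOn
  have p2' : 0 ≤ ∑ j, C2 j := Finset.sum_nonneg fun j _ => p2 j
  refine ⟨6 * C1 + (∑ j, C2 j) * (2 * |C3|), by positivity, fun v μ δ hv hμ hb => ?_⟩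
  have hδ := (norm_nonneg _).trans hv
  have k2 : ∀ x ∈ coreK 𝓔.φ hi, CkAt 1 (𝓔.glue a (fun _ => 0) μ) x := fun x hx =>
    (ck_glue ha (fun x => CkFn.ckAt (ckFn_const 0) x) hμ hhi hx).of_le (by norm_num)
  have k3 : ∀ x ∈ univ, CkAt 1 (fnC v) x := fun x _ => (fnC_ck v x).of_le (by norm_num)
  have h4 : JS 𝒞 (coreK 𝓔.φ hi) (𝓔.glue a (fun _ => 0) μ) ((∑ j, C2 j) * (2 * |C3|) * δ) := by
    intro i y hy hx
    rcases coreK_cases (a + 3) hx with h | ⟨j, p, hp, h, e⟩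
    · exact (JS.zero (by positivity)).congr (fun x => glue_ev ha) i y hy h
    · refine (h2 j _ (2 * |C3| * δ) fun q hq => ?_).mono le_rfl ?_ i y hy ⟨p, ⟨h, trivial⟩, e.symm⟩
      · have hq0 : 𝓔.w0 < q.1 := by linarith [hq.1]
        refine ⟨k2 _ (IsEnds.Yp_mem_coreK ⟨𝓔.mem, 𝓔.target, 𝓔.disj⟩ j hq0 hq.2), ?_⟩
        rw [pj, cj_congr (glue_ev_Y (hμ j).per hq0)]
        simp only [mul_zero, zero_add]
        rw [cj_mul_fst (contDiff_st2 _) ((hμ j).cd q ⟨by linarith [hq.1], by linarith [hq.2]⟩),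
          jmul_eq]
        exact (norm_jm1_le _ _).trans (mul_le_mul (by linarith [h3 _ hq, le_abs_self C3])
          (hb j q hq) (norm_nonneg _) (by positivity))
      · rw [← mul_assoc]
        gcongr
        exact Finset.single_le_sum (fun j _ => p2 j) (Finset.mem_univ j)
  refine ((((h1.mul (js_fnC v) k1 k3).mono (subset_univ _) le_rfl).add h4
    (fun x _ e he h => (k1 x trivial e he h).mul (k3 x trivial e he h)) k2).congr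
      fun x _ => Eventually.of_forall fun y => by simp [Ends.glue]).mono le_rfl ?_
  nlinarith [mul_le_mul_of_nonneg_left hv p1]

lemma glue_sub (v v' : VC 𝒞) (μ μ' : σ → ℝ × ℝ → ℂ) (x : M) :
    𝓔.glue a (fnC (v' - v)) (fun j p => μ' j p - μ j p) x =
      𝓔.glue a (fnC v') μ' x - 𝓔.glue a (fnC v) μ x := by
  have h : ∀ j, 𝓔.onEnd j (fun p => μ' j p - μ j p) x = 𝓔.onEnd j (μ' j) x - 𝓔.onEnd j (μ j) x :=
    fun j => by
      by_cases hx : x ∈ (𝓔.φ j).source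
      · simp only [Ends.onEnd, ext0_of_mem hx]
      · simp only [Ends.onEnd_of_notMem hx, sub_self]
  simp only [Ends.glue, fnC_sub, h, mul_sub, Finset.sum_sub_distrib]
  ring

end glue

lemma PPF_mulVec {R : Matrix (Fin 3) (Fin 3) ℂ} (hR : Rᵀ * R = 1) {Z : ℝ × ℝ → C3} {p : ℝ × ℝ}
    (hZ : ContDiffAt ℝ 2 Z p) :
    PPF (1, 0) (0, 1) (fun q => R *ᵥ Z q) p = R.det * PPF (1, 0) (0, 1) Z p := by
  rw [PPF_eq, PPF_eq]
  exact (congrArg PPj (cj_clm (P218XI.mvL R) hZ)).trans (PP_rot hR ..)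

lemma elm_of_ppf {σ : Type} {𝓔 : Ends σ M} {F X : M → C3} {j : σ} {p : ℝ × ℝ} (hp : 𝓔.w0 < p.1)
    (hF : Imm F (𝓔.Y j p)) (hX : CkAt 2 X (𝓔.Y j p))
    (h : PPF (1, 0) (0, 1) (fun q => X (𝓔.Y j q)) p = 0) (V : C3) : ELM F X (𝓔.Y j p) V = 0 := by
  have hm := Ends.pol_mem j hp
  have h1 := ELM_param (𝓔.mem j) hm hF hX P218VA.contDiff_pol.contDiffAt (P218VA.jac_pol_ne p) V
  have h2 := LagF_comp ((hF.ck.at_target (𝓔.mem j) hm).differentiableAt (by simp))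
    (P218VA.differentiable_pol p) (P218VA.jac_pol_ne p)
  have h3 := hF.lag_ne (𝓔.mem j) (Ends.Y_mem j hp)
  rw [Ends.φ_Y j hp] at h3
  have h4 : ELF (1, 0) (0, 1) (fun z => X ((𝓔.φ j).symm (pol z))) p V = 0 := by
    have h5 : PP _ _ _ _ _ _ = 0 := h
    simp only [Ends.Y] at h5
    rw [ELF, EL, h5]
    simp
  simp only [cX] at h2
  rw [h4, h2] at h1
  exact (mul_eq_zero.1 h1).resolve_right
    (mul_ne_zero (by exact_mod_cast abs_ne_zero.2 (P218VA.jac_pol_ne p)) h3)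

variable {ι κ β : Type} [Fintype β] [Fintype ι] [Fintype κ] {G : Geo M ι κ}
  {c : CoreOp (ι ⊕ κ) β M} {a : ℝ}

namespace GeoMap
variable (γ : GeoMap G c a)

/-- the surface -/
def X (U : M → ℂ) (B : β → ℂ) (x : M) : C3 := γ.Φ x (U x) B

/-- the position in a chart -/
def Ψ (e : OpenPartialHomeomorph M E2) (q : E2 × ℂ × (β → ℂ)) : C3 := γ.Φ (e.symm q.1) q.2.1 q.2.2

/-- the one-jet of the surface in terms of the one-jet of the height -/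
def Jm (e : OpenPartialHomeomorph M E2) (z : (E2 × ℂ × (β → ℂ)) × (E2 →L[ℝ] ℂ)) : C3 × C3 × C3 :=
  (γ.Ψ e z.1, fderiv ℝ (γ.Ψ e) z.1 (u1, z.2 u1, 0), fderiv ℝ (γ.Ψ e) z.1 (u2, z.2 u2, 0))

variable {e : OpenPartialHomeomorph M E2} {y : E2} {U : M → ℂ} {B : β → ℂ}

lemma Jm_eq (h : DifferentiableAt ℝ (γ.Ψ e) (y, cX e U y, B)) (hU : DifferentiableAt ℝ (cX e U) y) :
    γ.Jm e ((y, cX e U y, B), fderiv ℝ (cX e U) y) =
      (cX e (γ.X U B) y, pd (cX e (γ.X U B)) u1 y, pd (cX e (γ.X U B)) u2 y) := by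
  have h1 := (h.hasFDerivAt.comp y ((hasFDerivAt_id y).prodMk
    (hU.hasFDerivAt.prodMk (hasFDerivAt_const B y)))).fderiv
  have h2 : fderiv ℝ (cX e (γ.X U B)) y = _ := h1
  simp only [Jm, pd, h2]
  rfl

lemma cd_Ψ (he : e ∈ atlas E2 M) (hy : y ∈ e.target) (hx : e.symm y ∈ c.𝓔.reg) :
    ContDiffAt ℝ 2 (γ.Ψ e) (y, 0) := by
  have := γ.cd e he _ (e.map_target hy) hx
  rwa [e.right_inv hy] at this

lemma cd_Jm (he : e ∈ atlas E2 M) (hy : y ∈ e.target) (hx : e.symm y ∈ c.𝓔.reg) :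
    ContDiffAt ℝ 1 (γ.Jm e) ((y, 0), 0) := by
  have h1 := γ.cd_Ψ he hy hx
  have h2 : ContDiffAt ℝ 1 (fun z : (E2 × ℂ × (β → ℂ)) × (E2 →L[ℝ] ℂ) => fderiv ℝ (γ.Ψ e) z.1)
      ((y, 0), 0) :=
    ContDiffAt.comp (f := Prod.fst) _ (h1.fderiv_right (m := 1) le_rfl) contDiffAt_fst
  have h3 : ∀ u : E2, ContDiffAt ℝ 1 (fun z : (E2 × ℂ × (β → ℂ)) × (E2 →L[ℝ] ℂ) =>
      ((u, z.2 u, 0) : E2 × ℂ × (β → ℂ))) ((y, 0), 0) := fun u => by fun_prop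
  exact (ContDiffAt.comp (f := Prod.fst) _ (h1.of_le (by norm_num)) contDiffAt_fst).prodMk
    ((h2.clm_apply (h3 _)).prodMk (h2.clm_apply (h3 _)))

lemma X_zero {x : M} (hx : x ∈ c.𝓔.reg) : γ.X (fun _ => 0) 0 =ᶠ[𝓝 x] G.F :=
  eventually_of_mem (Ends.isOpen_reg.mem_nhds hx) γ.zero

lemma Jm_zero (he : e ∈ atlas E2 M) (hy : y ∈ e.target) (hx : e.symm y ∈ c.𝓔.reg) :
    γ.Jm e ((y, 0), 0) = (cX e G.F y, pd (cX e G.F) u1 y, pd (cX e G.F) u2 y) := by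
  have h := γ.Jm_eq (U := fun _ => 0) (B := 0) ((γ.cd_Ψ he hy hx).differentiableAt two_ne_zero)
    (differentiableAt_const (0 : ℂ))
  have h1 := cX_congr (e.map_target hy) (γ.X_zero hx)
  rw [e.right_inv hy] at h1
  rw [h1.self_of_nhds, pd_congr h1, pd_congr h1] at h
  rw [← h]
  congr 2
  exact (fderiv_const_apply (0 : ℂ)).symm

/-- the open conditions on jets -/
def OK (e : OpenPartialHomeomorph M E2) (z : (E2 × ℂ × (β → ℂ)) × (E2 →L[ℝ] ℂ)) : Prop :=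
  ContDiffAt ℝ 2 (γ.Ψ e) z.1 ∧ gram (γ.Jm e z).2.1 (γ.Jm e z).2.2 ∈ slitPlane ∧
    (γ.Jm e z).2.1 ⨯₃ (γ.Jm e z).2.2 ⬝ᵥ γ.V (e.symm z.1.1) z.1.2.1 z.1.2.2 ≠ 0

lemma ev_OK (he : e ∈ atlas E2 M) (hy : y ∈ e.target) (hx : e.symm y ∈ c.𝓔.reg) :
    ∀ᶠ z in 𝓝 ((y, 0), 0), γ.OK e z := by
  have h1 := (γ.cd_Jm he hy hx).of_le (m := 0) zero_le_one
  have h2 := γ.cV e he _ (e.map_target hy) hx
  have h3 := γ.tr e he _ (e.map_target hy) hx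
  rw [e.right_inv hy] at h2 h3
  have h4 : ContinuousAt (fun z : (E2 × ℂ × (β → ℂ)) × (E2 →L[ℝ] ℂ) =>
      γ.V (e.symm z.1.1) z.1.2.1 z.1.2.2) ((y, 0), 0) :=
    ContinuousAt.comp (f := Prod.fst) (x := ((y, 0), 0)) h2 continuousAt_fst
  have h5 := (contDiffAt_cross h1.snd.fst h1.snd.snd).continuousAt
  have h6 : Continuous fun z : C3 × C3 => z.1 ⬝ᵥ z.2 := continuous_fst.dotProduct continuous_snd
  refine (continuousAt_fst.eventually ((γ.cd_Ψ he hy hx).eventually (by simp))).and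
    (((contDiffAt_gram h1.snd.fst h1.snd.snd).continuousAt.eventually
      (isOpen_slitPlane.mem_nhds ?_)).and ((h6.continuousAt.comp (h5.prodMk h4)).eventually_ne ?_))
  · simp only [γ.Jm_zero he hy hx]
    exact (γ.imm _ hx).slit_target he hy
  · simp only [Function.comp, γ.Jm_zero he hy hx]
    exact h3

theorem exists_core {K : Set M} (hK : IsCompact K) (hr : K ⊆ c.𝓔.reg) : ∃ L ρ : ℝ, 0 ≤ L ∧ 0 < ρ ∧
    (∀ U B, (∀ x ∈ K, CkAt 2 U x) → JS G.𝒞 K U ρ → ‖B‖ ≤ ρ → ∀ x ∈ K, Imm (γ.X U B) x ∧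
      (ELM G.F (γ.X U B) x (γ.V x (U x) B) = 0 → ∀ W, ELM G.F (γ.X U B) x W = 0)) ∧
    ∀ U B U' B' δ, (∀ x ∈ K, CkAt 1 U x) → JS G.𝒞 K U ρ → ‖B‖ ≤ ρ → (∀ x ∈ K, CkAt 1 U' x) →
      JS G.𝒞 K U' ρ → ‖B'‖ ≤ ρ → JS G.𝒞 K (fun x => U' x - U x) δ → ‖B' - B‖ ≤ δ →
      JetClose G.𝒞 K (γ.X U' B') (γ.X U B) (L * δ) := by
  have hc := fun i => (isCompact_piece G.𝒞 hK i).image (f := fun y =>
    (((y, 0), 0) : (E2 × ℂ × (β → ℂ)) × (E2 →L[ℝ] ℂ))) (by fun_prop)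
  have ht : ∀ i, closedBall (G.𝒞.c i) (G.𝒞.r i) ⊆ (G.𝒞.e i).target := fun i =>
    (closedBall_subset_closedBall (by linarith [G.𝒞.r_pos i])).trans (G.𝒞.sub i)
  choose L r1 hL hr1 h1 using fun i => exists_lip_near (hc i) (f := γ.Jm (G.𝒞.e i))
    (by rintro _ ⟨y, hy, rfl⟩; exact γ.cd_Jm (G.𝒞.mem i) (ht i hy.1) (hr hy.2))
  choose r2 hr2 h2 using fun i => exists_ev_near (hc i) (P := γ.OK (G.𝒞.e i))
    (by rintro _ ⟨y, hy, rfl⟩; exact γ.ev_OK (G.𝒞.mem i) (ht i hy.1) (hr hy.2))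
  obtain ⟨L0, p0, hL0⟩ := Cov.exists_le_all L
  obtain ⟨r, pr, hr0⟩ := Cov.exists_pos_le (fun i => min (r1 i) (r2 i))
    fun i => lt_min (hr1 i) (hr2 i)
  have mem : ∀ U B, JS G.𝒞 K U (r / 2) → ‖B‖ ≤ r / 2 → ∀ i, ∀ y ∈ ball (G.𝒞.c i) (G.𝒞.r i),
      (G.𝒞.e i).symm y ∈ K → ((y, cX (G.𝒞.e i) U y, B), fderiv ℝ (cX (G.𝒞.e i) U) y) ∈
        ball (((y, 0), 0) : (E2 × ℂ × (β → ℂ)) × (E2 →L[ℝ] ℂ)) (min (r1 i) (r2 i)) := by
    intro U B hU hB i y hy hx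
    rw [mem_ball, dist_eq_norm]
    refine lt_of_le_of_lt (b := r / 2) ?_ ((half_lt_self pr).trans_le (hr0 i))
    simpa [Prod.norm_def, pr.le, div_nonneg] using ⟨⟨(hU i y hy hx).1, hB⟩, (hU i y hy hx).2⟩
  have ok := fun U B hU hB i y hy hx => h2 i _ ⟨y, ⟨ball_subset_closedBall hy, hx⟩, rfl⟩ _
    (ball_subset_ball (min_le_right _ _) (mem U B hU hB i y hy hx))
  refine ⟨L0, r / 2, p0, half_pos pr, fun U B hU hs hB x hx => ?_,
    fun U B U' B' δ hU hs hB hU' hs' hB' hd hd' i y hy hx => ?_⟩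
  · obtain ⟨i, hx1, hx2⟩ := G.𝒞.cover x
    have hx3 := (G.𝒞.e i).left_inv hx1
    obtain ⟨k1, k2, k3⟩ := ok U B hs hB i _ hx2 (by rwa [mem_preimage, hx3])
    have k4 := hU x hx _ (G.𝒞.mem i) hx1
    rw [γ.Jm_eq (k1.differentiableAt two_ne_zero) (k4.differentiableAt two_ne_zero)] at k2 k3
    have k5 : Imm (γ.X U B) x := imm_of_chart (G.𝒞.mem i) hx1
      (ContDiffAt.comp (g := γ.Ψ (G.𝒞.e i)) (f := fun y => (y, cX (G.𝒞.e i) U y, B)) _ k1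
        (contDiffAt_id.prodMk (k4.prodMk contDiffAt_const))) k2
    refine ⟨k5, fun h W => ?_⟩
    have e1 := ELM_chart (γ.imm x (hr hx)) k5.ck (G.𝒞.mem i) hx1
    have e2 := e1 (γ.V x (U x) B)
    simp only [cX, hx3] at k3
    rw [h, zero_mul, ELF, EL, eq_comm, neg_eq_zero, mul_eq_zero, or_iff_left k3] at e2
    have e3 := e1 W
    rw [ELF, EL, e2, zero_mul, neg_zero, mul_eq_zero] at e3
    exact e3.resolve_right ((γ.imm x (hr hx)).lag_ne (G.𝒞.mem i) hx1)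
  · have d := diff_cX hy (hU _ hx)
    have d' := diff_cX hy (hU' _ hx)
    have k := h1 i _ ⟨y, ⟨ball_subset_closedBall hy, hx⟩, rfl⟩ _
      (ball_subset_ball (min_le_left _ _) (mem U' B' hs' hB' i y hy hx)) _
      (ball_subset_ball (min_le_left _ _) (mem U B hs hB i y hy hx))
    rw [γ.Jm_eq ((ok U B hs hB i y hy hx).1.differentiableAt two_ne_zero) d,
      γ.Jm_eq ((ok U' B' hs' hB' i y hy hx).1.differentiableAt two_ne_zero) d'] at k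
    have hδ := (norm_nonneg _).trans hd'
    have k1 := hd i y hy hx
    rw [show cX (G.𝒞.e i) (fun x => U' x - U x) = fun z => cX (G.𝒞.e i) U' z - cX (G.𝒞.e i) U z
      from rfl, fderiv_fun_sub d' d] at k1
    have k2 := k.trans (mul_le_mul (hL0 i) (b := L0) (d := δ)
      (by simpa [Prod.norm_def, hδ] using ⟨⟨k1.1, hd'⟩, k1.2⟩) (norm_nonneg _) p0)
    simpa [Prod.norm_def] using k2

end GeoMap

end Vale.Agent.P218WD
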