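import Vale.Agent.P218WD.Cut
import Vale.Agent.P218CO.Sys

/-! The configuration attached to a solution of the collar system: definitions. -/

open Set Filter Metric Topology Complex
open scoped Matrix

noncomputable section

namespace Vale.Agent.P218WD

open Vale.Agent.P218VA Vale.Agent.P218CO Vale.Agent.P218MP Vale.Agent.P272.K.LIN
open Vale.Agent.P218XI (Frame U0 U1 U2)
open Vale.Agent.P218EN (WA xf Rg)

/-- the factor between the height function and the angular coordinate on an end -/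
def hf {ι κ : Type} : ι ⊕ κ → ℝ → ℂ := Sum.elim (fun _ => P218XI.kap) fun _ _ => 1

/-- functions close to `t0` describe admissible conical ends -/
def ConeOK (F : Frame) (t0 : ℝ × ℝ → ℂ) (s : ℝ) : Prop :=
  ∃ c > 0, ∃ ε > 0, ∀ p : ℝ × ℝ, s ≤ p.1 → ∀ u uw uθ : ℂ, ‖u‖ ≤ ε → p.1 * ‖uw‖ ≤ ε → ‖uθ‖ ≤ ε →
    (‖t0 p + u‖ ≤ 1 / 2 ∧ p.1 * ‖pd t0 (1, 0) p + uw‖ ≤ 1 ∧ ‖pd t0 (0, 1) p + uθ‖ ≤ 1) ∧
      c ≤ (gram (F.a p.1 p.2 (t0 p + u) (pd t0 (1, 0) p + uw))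
        (F.b p.1 p.2 (t0 p + u) (pd t0 (0, 1) p + uθ))).re

/-- a solution of the end problem which is free above the level `a + 6` and pinned at the cut -/
structure CylEnd (a W : ℝ) (α : ℂ) (J : Fin 6 → WA) : Prop where
  le : a + 9 ≤ W
  rg : Rg a a W α
  bd : ∀ i, P218EN.Bd (Icc a W) (P218EN.sg a α) (P218EN.om a α) (J i) 1
  sol : ∃ f ξ, P218EN.Sol a W α J f ξ 0 ∧ ∀ k w, a + 6 ≤ w → f.co k w = 0
  pin : (J 0).co 0 W = 0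

variable {M ι κ β : Type} [TopologicalSpace M] [ChartedSpace E2 M] [MeasurableSpace M] [Fintype β]

/-- The surface `Φ x (U x) B` given by a height function `U` and a tilt `B`. -/
structure GeoMap (G : Geo M ι κ) (c : CoreOp (ι ⊕ κ) β M) (a : ℝ) where
  /-- the position -/
  Φ : M → ℂ → (β → ℂ) → C3
  /-- the transversal field with which the equation is paired -/
  V : M → ℂ → (β → ℂ) → C3
  /-- the rotations of the ends -/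
  Rot : ι ⊕ κ → (β → ℂ) → Matrix (Fin 3) (Fin 3) ℂ
  /-- the ends of the reference surface -/
  base : ι ⊕ κ → ℝ × ℝ → ℂ
  /-- the orientations of the ends -/
  sg : ι ⊕ κ → ℝ
  φ_eq : G.φ = c.𝓔.φ
  w0_eq : G.w0 = c.𝓔.w0
  s_eq : G.s = a + 6
  lev : c.𝓔.w0 < a
  D_sub : G.D ⊆ c.𝓔.below (a + 3)
  sg_sq : ∀ j, sg j ^ 2 = 1
  base_cd : ∀ j (p : ℝ × ℝ), a < p.1 → ContDiffAt ℝ 2 (base j) p
  base_per : ∀ j, Per (base j)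
  base_real : ∀ j p, (base j p).im = 0
  cone : ∀ k, ConeOK (G.Fr k) (base (.inr k)) (a + 6)
  imm : ∀ x ∈ c.𝓔.reg, Imm G.F x
  cd : ∀ e ∈ atlas E2 M, ∀ x ∈ e.source, x ∈ c.𝓔.reg → ContDiffAt ℝ 2
    (fun q : E2 × ℂ × (β → ℂ) => Φ (e.symm q.1) q.2.1 q.2.2) (e x, 0)
  cV : ∀ e ∈ atlas E2 M, ∀ x ∈ e.source, x ∈ c.𝓔.reg → ContinuousAt
    (fun q : E2 × ℂ × (β → ℂ) => V (e.symm q.1) q.2.1 q.2.2) (e x, 0)
  zero : ∀ x ∈ c.𝓔.reg, Φ x 0 0 = G.F x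
  tr : ∀ e ∈ atlas E2 M, ∀ x ∈ e.source, x ∈ c.𝓔.reg →
    pd (cX e G.F) u1 (e x) ⨯₃ pd (cX e G.F) u2 (e x) ⬝ᵥ V x 0 0 ≠ 0
  N_eq : ∀ x ∈ c.𝓔.reg, ∀ U B, CkAt 2 U x → ‖U x‖ < 1 → ‖B‖ < 1 →
    c.N U B x = -ELM G.F (fun y => Φ y (U y) B) x (V x (U x) B)
  deep : ∀ x ∈ G.D, ∀ u B, Φ x u B = G.F x + u • G.ν x ∧ V x u B = G.ν x
  ends : ∀ j (p : ℝ × ℝ), a + 2 ≤ p.1 → ∀ u B, Φ (c.𝓔.Y j p) u B =
    Rot j B *ᵥ (G.fr j).X p.1 p.2 (hf j p.1 * (base j p + sg j * u))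
  orth : ∀ j B, ‖B‖ < 1 → (Rot j B)ᵀ * Rot j B = 1
  rot : ∀ j r s, ContDiffAt ℝ 1 (fun B => Rot j B r s) 0
  pp : ∀ j (p : ℝ × ℝ), a + 2 ≤ p.1 → ∀ μ : ℝ × ℝ → ℂ, ContDiffAt ℝ 2 μ p → ‖μ p‖ < 1 →
    (c.op j).E p (pj μ p) = 0 → PPF (1, 0) (0, 1)
      (fun q : ℝ × ℝ => (G.fr j).X q.1 q.2 (hf j q.1 * (base j q + sg j * μ q))) p = 0
  real : ∀ x ∈ c.𝓔.reg, ∀ (u : ℂ) B, u.im = 0 → star B = B → ∀ i, (Φ x u B i).im = 0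

/-- the unknowns of the collar system together with the solutions on the ends -/
structure Dat (𝒞 : Cov E2 M) (ι κ β : Type) where
  /-- the function on the closed surface -/
  v : VC 𝒞
  /-- the tilts -/
  B : β → ℂ
  /-- the functions on the collars and on the conical ends -/
  μ : ι ⊕ κ → ℝ × ℝ → ℂ
  /-- the profile parameters -/
  α : ι → ℂ
  /-- the normalised jets on the cylindrical ends -/
  J : ι → Fin 6 → WA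

variable {G : Geo M ι κ} {c : CoreOp (ι ⊕ κ) β M} {a : ℝ} [Fintype ι] [Fintype κ]

namespace GeoMap
variable (γ : GeoMap G c a)

/-- the angular coordinate on a conical end -/
def tc (d : Dat G.𝒞 ι κ β) (k : κ) (p : ℝ × ℝ) : ℂ :=
  γ.base (.inr k) p + γ.sg (.inr k) * d.μ (.inr k) p

/-- the configuration -/
def cfg (d : Dat G.𝒞 ι κ β) : Cfg M ι κ where
  X x := γ.Φ x (c.𝓔.glue a (fnC d.v) d.μ x) d.B
  U := fnC d.v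
  R j := γ.Rot j d.B
  t := Sum.elim (fun i p => P218XI.kap p.1 * U0 (d.α i) (d.J i) p) (γ.tc d)
  tw := Sum.elim
    (fun i p => P218XI.kap p.1 * (U1 (d.α i) (d.J i) p - xf p.1 * U0 (d.α i) (d.J i) p))
    fun k => pd (γ.tc d k) (1, 0)
  tθ := Sum.elim (fun i p => P218XI.kap p.1 * U2 (d.α i) (d.J i) p) fun k => pd (γ.tc d k) (0, 1)

/-- `d` is a solution of size `ρ` with the source `g`, cut at `W` -/
structure State (ρ : ℝ) (W : ι → ℝ) (d : Dat G.𝒞 ι κ β) (g : M → ℂ) : Prop where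
  hv : ‖d.v‖ ≤ ρ
  hB : ‖d.B‖ ≤ ρ
  col : ∀ j, Col a (d.μ j)
  sm : ∀ j (p : ℝ × ℝ), p.1 ∈ Ioo a (a + 9) → ‖(pj (d.μ j) p).1‖ ≤ ρ
  core : ∀ y ∈ c.𝓔.below (a + 3), c.N (fnC d.v) d.B y = g y
  src : ∀ y, y ∉ G.D → g y = 0
  collar : ∀ j (p : ℝ × ℝ), p.1 ∈ Ioo a (a + 9) → a + 2 ≤ p.1 →
    (c.op j).E p (pj (fun q => c.𝓔.glue a (fnC d.v) d.μ (c.𝓔.Y j q)) p) = 0
  cyl : ∀ i, CylEnd a (W i) (d.α i) (d.J i)
  link : ∀ i (p : ℝ × ℝ), p.1 ∈ Ioo a (a + 9) →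
    γ.base (.inl i) p + γ.sg (.inl i) * d.μ (.inl i) p = U0 (d.α i) (d.J i) p
  cone_cd : ∀ k (p : ℝ × ℝ), a < p.1 → ContDiffAt ℝ 2 (d.μ (.inr k)) p
  cone_eq : ∀ k (p : ℝ × ℝ), a + 6 < p.1 → (c.op (.inr k)).E p (pj (d.μ (.inr k)) p) = 0
  cone_sm : ∀ k (p : ℝ × ℝ), a < p.1 → ‖d.μ (.inr k) p‖ ≤ ρ ∧
    p.1 * ‖pd (d.μ (.inr k)) (1, 0) p‖ ≤ ρ ∧ ‖pd (d.μ (.inr k)) (0, 1) p‖ ≤ ρ

end GeoMap

/-- real data -/
structure Dat.Real {𝒞 : Cov E2 M} (a : ℝ) (d : Dat 𝒞 ι κ β) : Prop where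
  v : d.v.im = 0
  B : star d.B = d.B
  col : ∀ j (p : ℝ × ℝ), p.1 ∈ Ioo a (a + 9) → (d.μ j p).im = 0
  cone : ∀ k (p : ℝ × ℝ), a < p.1 → (d.μ (.inr k) p).im = 0
  α : ∀ i, (d.α i).im = 0
  J : ∀ i n, WA.cj (d.J i n) = d.J i n

/-- the data `d'` cut at `W'` are `δ`-close to the data `d` cut at `W` -/
structure Dat.Near {𝒞 : Cov E2 M} (a : ℝ) (W W' : ι → ℝ) (d d' : Dat 𝒞 ι κ β) (δ : ℝ) : Prop where
  v : ‖d'.v - d.v‖ ≤ δ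
  B : ‖d'.B - d.B‖ ≤ δ
  α : ‖d'.α - d.α‖ ≤ δ
  cyl : ∀ i, ∃ ψ ψ', IsPull (a + 6) (W i) (W' i) ψ ψ' δ ∧ MapsTo ψ (Icc a (W i)) (Icc a (W' i)) ∧
    ∀ n, ∀ w ∈ Icc a (W i), ∀ θ, ‖(d'.J i n).ev (ψ w) θ - (d.J i n).ev w θ‖ ≤ δ
  cone : ∀ k (p : ℝ × ℝ), a < p.1 → ‖d'.μ (.inr k) p - d.μ (.inr k) p‖ ≤ δ ∧
    p.1 * ‖pd (d'.μ (.inr k)) (1, 0) p - pd (d.μ (.inr k)) (1, 0) p‖ ≤ δ ∧
    ‖pd (d'.μ (.inr k)) (0, 1) p - pd (d.μ (.inr k)) (0, 1) p‖ ≤ δ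

end Vale.Agent.P218WD
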