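import Vale.Agent.P218WD.GM
import Vale.Agent.P218VA.Tay

/-! Bounds for first order jets in the charts of a cover. -/

open Set Filter Metric Topology Complex
open scoped Matrix

noncomputable section

namespace Vale.Agent.P218WD

open Vale.Agent.P218VA Vale.Agent.P218CO Vale.Agent.P218MP Vale.Agent.P272.K.LIN
open Vale.Agent.P218GA (pol)

section gen
variable {X Y : Type*} [NormedAddCommGroup X] [NormedSpace ℝ X] [NormedAddCommGroup Y]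
  [NormedSpace ℝ Y] {K : Set X}

theorem exists_lip_near (hK : IsCompact K) {f : X → Y} (hf : ∀ x ∈ K, ContDiffAt ℝ 1 f x) :
    ∃ L ρ : ℝ, 0 ≤ L ∧ 0 < ρ ∧
      ∀ x ∈ K, ∀ p ∈ ball x ρ, ∀ q ∈ ball x ρ, ‖f p - f q‖ ≤ L * ‖p - q‖ := by
  refine hK.induction_on (p := fun S => ∃ L ρ : ℝ, 0 ≤ L ∧ 0 < ρ ∧
    ∀ x ∈ S, ∀ p ∈ ball x ρ, ∀ q ∈ ball x ρ, ‖f p - f q‖ ≤ L * ‖p - q‖)
    ⟨0, 1, le_rfl, one_pos, by simp⟩ ?_ ?_ fun x hx => ?_
  · rintro S T hST ⟨L, ρ, h1, h2, h⟩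
    exact ⟨L, ρ, h1, h2, fun x hx => h x (hST hx)⟩
  · rintro S T ⟨L, ρ, h1, h2, h⟩ ⟨L', ρ', h1', h2', h'⟩
    refine ⟨max L L', min ρ ρ', le_max_of_le_left h1, lt_min h2 h2', ?_⟩
    rintro x (hx | hx) p hp q hq
    · exact (h x hx p (ball_subset_ball (min_le_left _ _) hp) q
        (ball_subset_ball (min_le_left _ _) hq)).trans (by gcongr; exact le_max_left _ _)
    · exact (h' x hx p (ball_subset_ball (min_le_right _ _) hp) q
        (ball_subset_ball (min_le_right _ _) hq)).trans (by gcongr; exact le_max_right _ _)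
  · obtain ⟨L, t, ht, h⟩ := (hf x hx).exists_lipschitzOnWith
    obtain ⟨r, hr, hs⟩ := Metric.mem_nhds_iff.1 ht
    have k : ∀ y ∈ ball x (r / 2), ball y (r / 2) ⊆ t := fun y hy =>
      (ball_subset_ball' (by linarith [mem_ball.1 hy])).trans hs
    exact ⟨ball x (r / 2), mem_nhdsWithin_of_mem_nhds (ball_mem_nhds _ (half_pos hr)), L, r / 2,
      L.2, half_pos hr, fun y hy p hp q hq => h.norm_sub_le (k y hy hp) (k y hy hq)⟩

omit [NormedSpace ℝ X] in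
theorem exists_ev_near (hK : IsCompact K) {P : X → Prop} (h : ∀ x ∈ K, ∀ᶠ y in 𝓝 x, P y) :
    ∃ ρ > 0, ∀ x ∈ K, ∀ y ∈ ball x ρ, P y := by
  obtain ⟨ρ, h0, h1⟩ := hK.exists_thickening_subset_open (isOpen_interior (s := {y | P y}))
    fun x hx => mem_interior_iff_mem_nhds.2 (h x hx)
  exact ⟨ρ, h0, fun x hx y hy => interior_subset (h1 (mem_thickening_iff.2 ⟨x, hx, hy⟩))⟩

end gen

variable {M : Type} [TopologicalSpace M] [ChartedSpace E2 M] (𝒞 : Cov E2 M)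

/-- the one-jets of `f` are bounded by `δ` on `K`, in the charts of the cover -/
def JS (K : Set M) (f : M → ℂ) (δ : ℝ) : Prop :=
  ∀ i, ∀ y ∈ ball (𝒞.c i) (𝒞.r i), (𝒞.e i).symm y ∈ K →
    ‖cX (𝒞.e i) f y‖ ≤ δ ∧ ‖fderiv ℝ (cX (𝒞.e i) f) y‖ ≤ δ

variable {𝒞} {K K' : Set M} {f g : M → ℂ} {δ δ' : ℝ}

lemma mem_target {i : Fin 𝒞.N} {y : E2} (hy : y ∈ ball (𝒞.c i) (𝒞.r i)) : y ∈ (𝒞.e i).target :=
  𝒞.sub' (by linarith [𝒞.r_pos i]) hy

lemma diff_cX {Z : Type*} [NormedAddCommGroup Z] [NormedSpace ℝ Z] {f : M → Z} {i : Fin 𝒞.N}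
    {y : E2} (hy : y ∈ ball (𝒞.c i) (𝒞.r i)) (hf : CkAt 1 f ((𝒞.e i).symm y)) :
    DifferentiableAt ℝ (cX (𝒞.e i) f) y :=
  (hf.at_target (𝒞.mem i) (mem_target hy)).differentiableAt one_ne_zero

lemma JS.mono (h : JS 𝒞 K f δ) (hK : K' ⊆ K) (hδ : δ ≤ δ') : JS 𝒞 K' f δ' := fun i y hy hx =>
  ⟨(h i y hy (hK hx)).1.trans hδ, (h i y hy (hK hx)).2.trans hδ⟩

lemma JS.congr (h : JS 𝒞 K f δ) (e : ∀ x ∈ K, g =ᶠ[𝓝 x] f) : JS 𝒞 K g δ := fun i y hy hx => by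
  have h1 := cX_congr ((𝒞.e i).map_target (mem_target hy)) (e _ hx)
  rw [(𝒞.e i).right_inv (mem_target hy)] at h1
  rw [h1.self_of_nhds, h1.fderiv_eq]
  exact h i y hy hx

lemma JS.zero (hδ : 0 ≤ δ) : JS 𝒞 K (fun _ => 0) δ := fun i y _ _ => by
  have : cX (𝒞.e i) (fun _ : M => (0 : ℂ)) = fun _ => 0 := rfl
  simp [this, hδ]

lemma JS.union (h : JS 𝒞 K f δ) (h' : JS 𝒞 K' f δ) : JS 𝒞 (K ∪ K') f δ := fun i y hy hx =>
  hx.elim (h i y hy) (h' i y hy)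

lemma JS.add (h : JS 𝒞 K f δ) (h' : JS 𝒞 K g δ') (hf : ∀ x ∈ K, CkAt 1 f x)
    (hg : ∀ x ∈ K, CkAt 1 g x) : JS 𝒞 K (fun x => f x + g x) (δ + δ') := fun i y hy hx => by
  refine ⟨norm_add_le_of_le (h i y hy hx).1 (h' i y hy hx).1, ?_⟩
  have := fderiv_fun_add (diff_cX hy (hf _ hx)) (diff_cX hy (hg _ hx))
  exact (congrArg norm this).trans_le (norm_add_le_of_le (h i y hy hx).2 (h' i y hy hx).2)

lemma JS.mul (h : JS 𝒞 K f δ) (h' : JS 𝒞 K g δ') (hf : ∀ x ∈ K, CkAt 1 f x)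
    (hg : ∀ x ∈ K, CkAt 1 g x) : JS 𝒞 K (fun x => f x * g x) (2 * δ * δ') := fun i y hy hx => by
  obtain ⟨a1, a2⟩ := h i y hy hx
  obtain ⟨b1, b2⟩ := h' i y hy hx
  have p1 := (norm_nonneg _).trans a1
  have p2 := (norm_nonneg _).trans b1
  refine ⟨(norm_mul_le_of_le a1 b1).trans (by nlinarith [mul_nonneg p1 p2]), ?_⟩
  have := fderiv_fun_mul (diff_cX hy (hf _ hx)) (diff_cX hy (hg _ hx))
  refine (congrArg norm this).trans_le ((norm_add_le _ _).trans ?_)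
  rw [norm_smul, norm_smul]
  nlinarith [mul_le_mul a1 b2 (norm_nonneg _) p1, mul_le_mul b1 a2 (norm_nonneg _) p2]

lemma JS.norm_le (h : JS 𝒞 K f δ) {x : M} (hx : x ∈ K) : ‖f x‖ ≤ δ := by
  obtain ⟨i, h1, h2⟩ := 𝒞.cover x
  have := (h i _ h2 (by rwa [(𝒞.e i).left_inv h1])).1
  rwa [cX, (𝒞.e i).left_inv h1] at this

lemma fnC_ck (v : VC 𝒞) (x : M) : CkAt 2 (fnC v) x := fun e he hx =>
  ((CkFn.ckAt (𝒞.fn_ck v.re) x).ofReal e he hx).add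
    (contDiffAt_const.mul ((CkFn.ckAt (𝒞.fn_ck v.im) x).ofReal e he hx))

lemma js_fnR (v : VR 𝒞) : JS 𝒞 univ (fun x => (fnR v x : ℂ)) ‖v‖ := fun i y hy _ => by
  have h1 := ((𝒞.J _ i v).norm_apply_le ((𝒞.e i).symm y)).trans (𝒞.norm_J_le i v)
  rw [𝒞.J_apply i v, 𝒞.Jf_symm (𝒞.ball_sub hy)] at h1
  have h2 := diff_cX hy ((CkFn.ckAt (𝒞.fn_ck v) _).of_le (by norm_num))
  refine ⟨?_, ?_⟩
  · rw [cX, norm_real]
    exact (norm_fst_le _).trans h1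
  · have h3 := (ofRealCLM.hasFDerivAt.comp y h2.hasFDerivAt).fderiv
    refine (congrArg norm h3).trans_le ((ContinuousLinearMap.opNorm_comp_le _ _).trans ?_)
    rw [ofRealCLM_norm, one_mul]
    exact ((norm_fst_le _).trans (norm_snd_le _)).trans h1

lemma js_const (c : ℂ) : JS 𝒞 K (fun _ => c) ‖c‖ := fun i y _ _ => by
  have : cX (𝒞.e i) (fun _ : M => c) = fun _ => c := rfl
  simp [this]

lemma js_fnC (v : VC 𝒞) : JS 𝒞 univ (fnC v) (3 * ‖v‖) := by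
  have k : ∀ u : VR 𝒞, ∀ x ∈ univ, CkAt 1 (fun x => (fnR u x : ℂ)) x := fun u x _ =>
    ((CkFn.ckAt (𝒞.fn_ck u) x).ofReal).of_le (by norm_num)
  have k' : ∀ x ∈ univ, CkAt 1 (fun _ : M => I) x := fun x _ => CkFn.ckAt (ckFn_const I) x
  refine ((js_fnR v.re).add ((js_const I).mul (js_fnR v.im) k' (k _)) (k _)
    fun x hx e he h => (k' x hx e he h).mul (k _ x hx e he h)).mono le_rfl ?_
  rw [norm_I]
  linarith [v.norm_re_le, v.norm_im_le]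

lemma fnC_sub (v v' : VC 𝒞) (x : M) : fnC (v' - v) x = fnC v' x - fnC v x := by
  have h : ∀ u u' : VR 𝒞, fnR (u' - u) x = fnR u' x - fnR u x := fun _ _ => rfl
  have h1 : (v' - v).re = v'.re - v.re := map_sub Cx.reL v' v
  have h2 : (v' - v).im = v'.im - v.im := map_sub Cx.imL v' v
  simp only [fnC, h1, h2, h]
  push_cast
  ring

variable [T2Space M] [CompactSpace M] [RSm E2 M] [MeasurableSpace M] [BorelSpace M]

lemma exists_bound_piece (hK : IsCompact K) {Z : Type*} [NormedAddCommGroup Z]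
    {Φ : Fin 𝒞.N → E2 → Z} (h : ∀ i, ∀ y ∈ (𝒞.e i).target, (𝒞.e i).symm y ∈ K →
      ContinuousAt (Φ i) y) : ∃ C, 0 ≤ C ∧
      ∀ i, ∀ y ∈ ball (𝒞.c i) (𝒞.r i), (𝒞.e i).symm y ∈ K → ‖Φ i y‖ ≤ C := by
  have h1 := fun i => (isCompact_piece 𝒞 hK i).exists_bound_of_continuousOn (f := Φ i)
    fun y hy => (h i y (𝒞.sub i (closedBall_subset_closedBall (by linarith [𝒞.r_pos i]) hy.1))
      hy.2).continuousWithinAt
  choose C hC using h1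
  obtain ⟨C0, h0, h1⟩ := Cov.exists_le_all C
  exact ⟨C0, h0, fun i y hy hx => (hC i y ⟨ball_subset_closedBall hy, hx⟩).trans (h1 i)⟩

lemma exists_js (hK : IsCompact K) (hf : ∀ x ∈ K, CkAt 1 f x) : ∃ C, 0 ≤ C ∧ JS 𝒞 K f C := by
  obtain ⟨C, h0, h⟩ := exists_bound_piece (𝒞 := 𝒞) hK
    (Φ := fun i y => (cX (𝒞.e i) f y, fderiv ℝ (cX (𝒞.e i) f) y)) fun i y hy hx =>
      ((hf _ hx).at_target (𝒞.mem i) hy).continuousAt.prodMk
        (((hf _ hx).at_target (𝒞.mem i) hy).fderiv_right (m := 0) le_rfl).continuousAt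
  exact ⟨C, h0, fun i y hy hx =>
    ⟨(norm_fst_le _).trans (h i y hy hx), (norm_snd_le _).trans (h i y hy hx)⟩⟩

lemma norm_fderiv_le_pj {g : ℝ × ℝ → ℂ} (p : ℝ × ℝ) : ‖fderiv ℝ g p‖ ≤ 2 * ‖(pj g p).1‖ := by
  refine ContinuousLinearMap.opNorm_le_bound _ (by positivity) fun v => ?_
  have e : v = v.1 • ((1, 0) : ℝ × ℝ) + v.2 • ((0, 1) : ℝ × ℝ) := by simp
  have h1 : ‖fderiv ℝ g p (1, 0)‖ ≤ ‖(pj g p).1‖ := (norm_fst_le (pj g p).1.2).trans (norm_snd_le _)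
  have h2 : ‖fderiv ℝ g p (0, 1)‖ ≤ ‖(pj g p).1‖ := (norm_snd_le (pj g p).1.2).trans (norm_snd_le _)
  conv_lhs => rw [e, map_add, map_smul, map_smul]
  refine (norm_add_le _ _).trans ?_
  rw [norm_smul, norm_smul]
  nlinarith [mul_le_mul (norm_fst_le v) h1 (norm_nonneg _) (norm_nonneg _),
    mul_le_mul (norm_snd_le v) h2 (norm_nonneg _) (norm_nonneg _)]

variable {σ : Type} (𝓔 : Ends σ M)

/-- polar jets control the jets in the charts -/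
theorem exists_js_polar (j : σ) {lo : ℝ} (hi : ℝ) (hlo : 𝓔.w0 < lo) : ∃ C, 0 ≤ C ∧
    ∀ (f : M → ℂ) (δ : ℝ), (∀ p : ℝ × ℝ, p.1 ∈ Icc lo hi → CkAt 1 f (𝓔.Y j p) ∧
      ‖(pj (fun q => f (𝓔.Y j q)) p).1‖ ≤ δ) → JS 𝒞 (𝓔.Y j '' (Icc lo hi ×ˢ univ)) f (C * δ) := by
  have hK : IsCompact (𝓔.Y j '' (Icc lo hi ×ˢ univ)) := by
    rw [show 𝓔.Y j = (𝓔.φ j).symm ∘ pol from rfl, image_comp]
    refine (isCompact_image_pol lo hi).image_of_continuousOn ((𝓔.φ j).continuousOn_symm.mono ?_)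
    rintro _ ⟨p, hp, rfl⟩
    exact Ends.pol_mem j (hlo.trans_le hp.1.1)
  have tr : ∀ i, ∀ y ∈ (𝒞.e i).target, (𝒞.e i).symm y ∈ 𝓔.Y j '' (Icc lo hi ×ˢ univ) →
      ContDiffAt ℝ 2 (fun z => 𝓔.φ j ((𝒞.e i).symm z)) y := fun i y hy ⟨p, hp, e⟩ => by
    have := trans_smooth (𝓔.mem j) (𝒞.mem i) (e ▸ Ends.Y_mem j (hlo.trans_le hp.1.1))
      ((𝒞.e i).map_target hy)
    rwa [(𝒞.e i).right_inv hy] at this
  obtain ⟨C, h0, h⟩ := exists_bound_piece (𝒞 := 𝒞) hK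
    (Φ := fun i => fderiv ℝ fun z => 𝓔.φ j ((𝒞.e i).symm z)) fun i y hy hx =>
      ((tr i y hy hx).fderiv_right (m := 0) (by norm_num)).continuousAt
  refine ⟨1 + 2 * Real.exp hi * C, by positivity, fun f δ hf i y hy hx => ?_⟩
  have d1 := (tr i y (mem_target hy) hx).differentiableAt two_ne_zero
  have b1 := h i y hy hx
  obtain ⟨p, hp, e⟩ := hx
  have hp0 := hlo.trans_le hp.1.1
  obtain ⟨c1, c2⟩ := hf p hp.1
  have hδ := (norm_nonneg _).trans c2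
  have d2 := (c1.at_target (𝓔.mem j) (Ends.pol_mem j hp0)).differentiableAt one_ne_zero
  have e1 : 𝓔.φ j ((𝒞.e i).symm y) = pol p := by rw [← e, Ends.φ_Y j hp0]
  have e2 := cX_trans f (e ▸ Ends.Y_mem j hp0) ((𝒞.e i).map_target (mem_target hy))
  rw [(𝒞.e i).right_inv (mem_target hy)] at e2
  have e3 : fderiv ℝ (cX (𝓔.φ j) f) (pol p) =
      (fderiv ℝ (fun q => f (𝓔.Y j q)) p).comp (dlp (pol p)) := by
    rw [show (fun q => f (𝓔.Y j q)) = cX (𝓔.φ j) f ∘ pol from rfl,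
      (d2.hasFDerivAt.comp p (hasFDerivAt_pol p)).fderiv]
    ext z
    simp [dpol_dlp (pol_ne_zero p)]
  have b2 : ‖dlp (pol p)‖ ≤ Real.exp hi := (norm_dlp_le _).trans (by
    rw [P218MP.norm_pol, ← Real.exp_neg, neg_neg]; exact Real.exp_le_exp.2 hp.1.2)
  refine ⟨?_, ?_⟩
  · rw [cX, ← e]
    exact ((norm_fst_le (pj (fun q => f (𝓔.Y j q)) p).1).trans c2).trans
      (le_mul_of_one_le_left hδ (le_add_of_nonneg_right (by positivity)))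
  · rw [e2.fderiv_eq, fderiv_fun_comp y (by rwa [e1]) d1, e1, e3]
    calc _ ≤ 2 * δ * Real.exp hi * C := ContinuousLinearMap.opNorm_comp_le _ _ |>.trans
          (mul_le_mul ((ContinuousLinearMap.opNorm_comp_le _ _).trans (mul_le_mul
            ((norm_fderiv_le_pj p).trans (by linarith)) b2 (norm_nonneg _) (by positivity))) b1
            (norm_nonneg _) (by positivity))
      _ ≤ _ := by nlinarith

end Vale.Agent.P218WD
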