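import Vale.Agent.P218IN.Sq

/-! Complex numbers close to one. -/

namespace Vale.Agent.P218WD
open Complex

/-- `z` is `a`-close to one -/
def Nr (z : ℂ) (a : ℝ) : Prop := ‖z - 1‖ ≤ a

namespace Nr
variable {x y : ℂ} {a b : ℝ}

theorem mono (h : Nr x a) (hab : a ≤ b) : Nr x b := le_trans h hab

theorem nonneg (h : Nr x a) : 0 ≤ a := (norm_nonneg _).trans h

theorem norm_le (h : Nr x a) : ‖x‖ ≤ 1 + a := by
  have h1 := norm_add_le (x - 1) 1
  rw [sub_add_cancel, norm_one] at h1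
  linarith [show ‖x - 1‖ ≤ a from h]

theorem re_ge (h : Nr x a) : 1 - a ≤ x.re := by
  have h1 := (abs_le.1 ((abs_re_le_norm (x - 1)).trans h)).1
  simp only [sub_re, one_re] at h1
  linarith

theorem norm_ge (h : Nr x a) : 1 - a ≤ ‖x‖ := h.re_ge.trans (re_le_norm x)

theorem ne (h : Nr x a) (ha : a < 1) : x ≠ 0 := norm_pos_iff.1 (by linarith [h.norm_ge])

theorem one_add (h : ‖y‖ ≤ a) : Nr (1 + y) a := by simpa [Nr] using h

theorem one_sub (h : ‖y‖ ≤ a) : Nr (1 - y) a := by simpa [Nr] using h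

theorem add (h : Nr x a) (hy : ‖y‖ ≤ b) : Nr (x + y) (a + b) := by
  have : x + y - 1 = x - 1 + y := by ring
  rw [Nr, this]
  exact (norm_add_le _ _).trans (add_le_add h hy)

theorem sub (h : Nr x a) (hy : ‖y‖ ≤ b) : Nr (x - y) (a + b) := by
  simpa [sub_eq_add_neg] using h.add (y := -y) (by simpa using hy)

theorem mul (h : Nr x a) (h' : Nr y b) : Nr (x * y) (a + b + a * b) := by
  have e : x * y - 1 = (x - 1) + (y - 1) + (x - 1) * (y - 1) := by ring
  rw [Nr, e]
  refine (norm_add_le _ _).trans (add_le_add ((norm_add_le _ _).trans (add_le_add h h')) ?_)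
  rw [norm_mul]
  exact mul_le_mul h h' (norm_nonneg _) h.nonneg

theorem sq (h : Nr x a) : Nr (x ^ 2) (2 * a + a ^ 2) := by
  rw [pow_two x]
  exact (h.mul h).mono (by nlinarith)

theorem inv (h : Nr x a) (ha : a < 1) : Nr x⁻¹ (a / (1 - a)) := by
  have h0 := h.ne ha
  have e : x⁻¹ - 1 = -((x - 1) / x) := by field_simp; ring
  rw [Nr, e, norm_neg, norm_div]
  exact div_le_div₀ h.nonneg h (by linarith) h.norm_ge

theorem sqrt (h : Nr x a) : Nr (Complex.sqrt x) a := (P218IN.norm_sqrt_sub_one_le x).trans h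

theorem small (h : Nr x a) (hy : ‖y‖ ≤ b) : ‖y * x‖ ≤ b * (1 + a) := by
  rw [norm_mul]
  exact mul_le_mul hy h.norm_le (norm_nonneg _) ((norm_nonneg _).trans hy)

theorem eq_of_sq (h : Nr x a) (h' : Nr y b) (ha : a < 1) (hb : b < 1) (e : x ^ 2 = y ^ 2) :
    x = y := by
  rcases sq_eq_sq_iff_eq_or_eq_neg.1 e with h1 | h1
  · exact h1
  · have h2 := h.re_ge
    have h3 := h'.re_ge
    rw [h1, neg_re] at h2
    linarith

theorem sub_le (h : Nr x a) (h' : Nr y b) (hab : a + b ≤ 1) : ‖x - y‖ ≤ ‖x ^ 2 - y ^ 2‖ := by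
  have e : x ^ 2 - y ^ 2 = (x - y) * (x + y) := by ring
  have h1 : 1 ≤ ‖x + y‖ := by
    have := re_le_norm (x + y)
    rw [add_re] at this
    linarith [h.re_ge, h'.re_ge]
  rw [e, norm_mul]
  exact le_mul_of_one_le_right (norm_nonneg _) h1

end Nr

/-- a root in the sector around the positive axis -/
structure Root (e : ℂ) : Prop where
  re : 0 < e.re
  sq : 0 < (e ^ 2).re

theorem Root.ne {e : ℂ} (h : Root e) : e ≠ 0 := fun h0 => by simpa [h0] using h.re

theorem Root.re_mul {e z : ℂ} (h : Root e) (hz : Nr z (1 / 2)) : 0 < (e * z).re := by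
  have h1 := h.re
  have h2 := h.sq
  simp only [pow_two, mul_re] at h2
  have h3 : ‖e‖ < 2 * e.re := by
    refine lt_of_pow_lt_pow_left₀ 2 (by positivity) ?_
    rw [Complex.sq_norm, normSq_apply]
    nlinarith
  have h4 := (abs_le.1 (abs_re_le_norm (e * (z - 1)))).1
  have h5 : ‖e * (z - 1)‖ ≤ ‖e‖ * (1 / 2) := by
    rw [norm_mul]
    exact mul_le_mul_of_nonneg_left hz (norm_nonneg _)
  have e1 : e * z = e + e * (z - 1) := by ring
  rw [e1, add_re]
  linarith

theorem Root.real_mul {e : ℂ} (h : Root e) {c : ℝ} (hc : 0 < c) : Root (c * e) := by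
  refine ⟨by simpa using mul_pos hc h.re, ?_⟩
  rw [mul_pow, ← ofReal_pow, re_ofReal_mul]
  exact mul_pos (pow_pos hc 2) h.sq

theorem root_sqrt {z : ℂ} (hz : 0 < z.re) : Root (Complex.sqrt z) := by
  refine ⟨?_, by rwa [P218IN.sqrt_sq']⟩
  rcases (P218IN.sqrt_re_nonneg z).lt_or_eq with h | h
  · exact h
  · have h1 := congrArg Complex.re (P218IN.sqrt_sq' z)
    simp only [pow_two, mul_re, ← h] at h1
    nlinarith [mul_self_nonneg (Complex.sqrt z).im]

theorem sq_mem_slitPlane {z : ℂ} (hz : 0 < z.re) : z ^ 2 ∈ slitPlane := by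
  by_cases h : z.im = 0
  · left
    simp only [pow_two, mul_re, h]
    nlinarith
  · right
    simp only [pow_two, mul_im]
    intro h1
    have : z.im * (2 * z.re) = 0 := by linarith
    rcases mul_eq_zero.1 this with h2 | h2
    · exact h h2
    · linarith

end Vale.Agent.P218WD
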