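import Vale.Agent.P218WD.BC
import Vale.Agent.P218IN.Stokes
import Vale.Agent.P218EF.Fun

/-! Asymptotics of the derivative of the action in the height of the cut. -/

namespace Vale.Agent.P218WD
open Complex Filter Topology Vale.Agent.P218VA Vale.Agent.P218XI Vale.Agent.P218EN
open scoped Real

/-- the mean over a period -/
noncomputable def mean (f : ℝ → ℂ) : ℂ := (2 * π : ℂ)⁻¹ * ∫ θ in (0 : ℝ)..2 * π, f θ

theorem integral_eq_mean (f : ℝ → ℂ) : ∫ θ in (0 : ℝ)..2 * π, f θ = 2 * π * mean f := by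
  have := pi_ne
  rw [mean]
  field_simp

theorem mean_const (c : ℂ) : mean (fun _ => c) = c := by
  have := pi_ne
  rw [mean, intervalIntegral.integral_const]
  simp only [sub_zero, real_smul]
  push_cast
  field_simp

theorem mean_sub {f g : ℝ → ℂ} (hf : Continuous f) (hg : Continuous g) :
    mean (fun θ => f θ - g θ) = mean f - mean g := by
  rw [mean, intervalIntegral.integral_sub (hf.intervalIntegrable _ _) (hg.intervalIntegrable _ _),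
    mul_sub, mean, mean]

theorem mean_mul (c : ℂ) (f : ℝ → ℂ) : mean (fun θ => c * f θ) = c * mean f := by
  rw [mean, intervalIntegral.integral_const_mul, mean]; ring

theorem norm_mean_le {f : ℝ → ℂ} {B : ℝ} (h : ∀ θ, ‖f θ‖ ≤ B) : ‖mean f‖ ≤ B := by
  have h1 := intervalIntegral.norm_integral_le_of_norm_le_const (a := 0) (b := 2 * π)
    fun θ _ => h θ
  rw [sub_zero, abs_of_pos Real.two_pi_pos] at h1
  have h2 : ‖(2 * π : ℂ)‖ = 2 * π := by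
    rw [norm_mul, Complex.norm_two, norm_real, Real.norm_of_nonneg Real.pi_pos.le]
  rw [mean, norm_mul, norm_inv, h2, inv_mul_le_iff₀ Real.two_pi_pos]
  linarith

theorem nr_mean {f : ℝ → ℂ} (hf : Continuous f) {B : ℝ} (h : ∀ θ, Nr (f θ) B) : Nr (mean f) B := by
  have := norm_mean_le h
  rwa [mean_sub hf continuous_const, mean_const] at this

theorem mean_taylor {f η : ℝ → ℂ} (hf : Continuous f) (hη : Continuous η) {c0 c1 : ℂ} {B : ℝ}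
    (h : ∀ θ, ‖f θ - c0 - c1 * (η θ - mean η)‖ ≤ B) : ‖mean f - c0‖ ≤ B := by
  have := norm_mean_le h
  rwa [mean_sub (f := fun θ => f θ - c0) (by fun_prop) (by fun_prop),
    mean_sub hf continuous_const, mean_mul, mean_sub hη continuous_const, mean_const, mean_const,
    sub_self, mul_zero, sub_zero] at this

section point
variable {A ε η η0 t : ℂ} {ω : ℝ}

theorem den_le (hε : ‖ε‖ ≤ 1 / 100) (hη : ‖η‖ ≤ 1 / 100) (h0 : ‖η0‖ ≤ 1 / 100) :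
    ‖(1 + ε * (1 + η) ^ 2)⁻¹ * (1 + ε * (1 + η0) ^ 2)⁻¹ ^ 2‖ ≤ 21 / 20 :=
  ((nr_laminv hε hη).mul (nr_laminv hε h0).sq).norm_le.trans (by norm_num)

theorem taylor_G (hε : ‖ε‖ ≤ 1 / 100) (hη : ‖η‖ ≤ 1 / 100) (h0 : ‖η0‖ ≤ 1 / 100)
    (hω : ‖η - η0‖ ≤ ω) :
    ‖(1 + η) ^ 2 / (1 + ε * (1 + η) ^ 2) - (1 + η0) ^ 2 / (1 + ε * (1 + η0) ^ 2) -
      2 * (1 + η0) / (1 + ε * (1 + η0) ^ 2) ^ 2 * (η - η0)‖ ≤ 11 / 10 * ω ^ 2 := by
  have h1 := (nr_lam hε hη).ne (by norm_num)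
  have h2 := (nr_lam hε h0).ne (by norm_num)
  have e : (1 + η) ^ 2 / (1 + ε * (1 + η) ^ 2) - (1 + η0) ^ 2 / (1 + ε * (1 + η0) ^ 2) -
      2 * (1 + η0) / (1 + ε * (1 + η0) ^ 2) ^ 2 * (η - η0) = (η - η0) ^ 2 *
      ((1 - ε * ((1 + η0) * (1 + η)) - ε * ((1 + η0) * (1 + η)) - ε * (1 + η0) ^ 2) *
        ((1 + ε * (1 + η) ^ 2)⁻¹ * (1 + ε * (1 + η0) ^ 2)⁻¹ ^ 2)) := by
    rw [← add_sub_add_left_eq_sub η η0 1]
    generalize 1 + η = h at h1 ⊢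
    generalize 1 + η0 = k at h2 ⊢
    generalize hl : 1 + ε * h ^ 2 = l at h1 ⊢
    generalize hl0 : 1 + ε * k ^ 2 = l0 at h2 ⊢
    field_simp
    rw [← hl, ← hl0]
    ring
  have h3 := ((Nr.one_add h0).mul (Nr.one_add hη)).small hε
  have h4 := (((Nr.one_sub h3).sub h3).sub ((Nr.one_add h0).sq.small hε)).norm_le
  rw [e, norm_mul, norm_mul, norm_pow, mul_comm (11 / 10 : ℝ)]
  have h5 := mul_le_mul h4 (den_le hε hη h0) (norm_nonneg _) (by norm_num)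
  exact mul_le_mul (by gcongr) (h5.trans (by norm_num)) (by positivity) (by positivity)

theorem taylor_F (hε : ‖ε‖ ≤ 1 / 100) (hη : ‖η‖ ≤ 1 / 100) (h0 : ‖η0‖ ≤ 1 / 100)
    (ht : ‖t‖ ≤ 1 / 100) (hω : ‖η - η0‖ ≤ ω) (hω' : ‖t‖ ≤ ω) :
    ‖Complex.sqrt ((1 + η) ^ 2 + t ^ 2) / (1 + ε * (1 + η) ^ 2) -
      (1 + η0) / (1 + ε * (1 + η0) ^ 2) -
      (1 - ε * (1 + η0) ^ 2) / (1 + ε * (1 + η0) ^ 2) ^ 2 * (η - η0)‖ ≤ 11 / 10 * ω ^ 2 := by
  have h1 := (nr_lam hε hη).ne (by norm_num)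
  have h2 := (nr_lam hε h0).ne (by norm_num)
  have e : Complex.sqrt ((1 + η) ^ 2 + t ^ 2) / (1 + ε * (1 + η) ^ 2) -
      (1 + η0) / (1 + ε * (1 + η0) ^ 2) -
      (1 - ε * (1 + η0) ^ 2) / (1 + ε * (1 + η0) ^ 2) ^ 2 * (η - η0) =
      (Complex.sqrt ((1 + η) ^ 2 + t ^ 2) - (1 + η)) * (1 + ε * (1 + η) ^ 2)⁻¹ + (η - η0) ^ 2 *
      ((ε * (ε * ((1 + η) * (1 + η0) ^ 2)) - ε * (1 + η) - ε * (1 + η0) - ε * (1 + η0)) *
        ((1 + ε * (1 + η) ^ 2)⁻¹ * (1 + ε * (1 + η0) ^ 2)⁻¹ ^ 2)) := by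
    rw [← add_sub_add_left_eq_sub η η0 1]
    generalize Complex.sqrt _ = g
    generalize 1 + η = h at h1 ⊢
    generalize 1 + η0 = k at h2 ⊢
    generalize hl : 1 + ε * h ^ 2 = l at h1 ⊢
    generalize hl0 : 1 + ε * k ^ 2 = l0 at h2 ⊢
    field_simp
    rw [← hl, ← hl0]
    ring
  have h3 := (nr_G hη ht).sqrt.sub_le (Nr.one_add hη) (by norm_num)
  rw [P218IN.sqrt_sq', add_sub_cancel_left, norm_pow] at h3
  have h4 : ‖t‖ ^ 2 ≤ ω ^ 2 := by gcongr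
  have h5 := (nr_laminv hε hη).small (h3.trans h4)
  have h6 : ‖ε * (ε * ((1 + η) * (1 + η0) ^ 2))‖ ≤ 1 / 100 * (1 / 50) := by
    rw [norm_mul]
    exact mul_le_mul hε ((((Nr.one_add hη).mul (Nr.one_add h0).sq).small hε).trans (by norm_num))
      (norm_nonneg _) (by norm_num)
  have h7 := (Nr.one_add hη).small hε
  have h8 := (Nr.one_add h0).small hε
  have h9 := norm_sub_le_of_le (norm_sub_le_of_le (norm_sub_le_of_le h6 h7) h8) h8
  have h10 := mul_le_mul h9 (den_le hε hη h0) (norm_nonneg _) (by norm_num)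
  have h11 : ‖η - η0‖ ^ 2 ≤ ω ^ 2 := by gcongr
  have h12 := mul_le_mul h11 h10 (by positivity) (by positivity)
  rw [e]
  refine (norm_add_le _ _).trans ?_
  rw [norm_mul ((η - η0) ^ 2), norm_mul _ (_ * _), norm_pow]
  nlinarith [sq_nonneg ω]

end point

/-- the algebraic part of the estimate -/
theorem res_alg {W : ℝ} {A e m l F δ : ℂ} {d : ℝ} (hW : 0 < W) (hA : 16 * W ^ 2 * e ^ 2 * A = 1)
    (he : Root e) (hA' : ‖A‖ ≤ 1 / 100) (hε : ‖e ^ 2‖ ≤ 1 / 100) (hm : Nr m (1 / 20))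
    (hF : Nr F (1 / 16)) (h1 : ‖mu (e ^ 2) m - F‖ ≤ d) (h2 : ‖l - F‖ ≤ d)
    (hδ : δ = 4 * W * e * nu A (e ^ 2) m * l + (-(4 * W * e * mu (e ^ 2) m) +
      1 / (2 * (4 * W * e * mu (e ^ 2) m)) + 1 / (W * (4 * W * e * mu (e ^ 2) m))) -
      P218IN.Rr ((4 * W * e * F) ^ 2)) :
    ‖δ‖ ≤ 4 * W * ‖e‖ * (5 / 2 * d + 1 / (2 * W ^ 2)) + 1 / (9 * W) := by
  have hd : 0 ≤ d := (norm_nonneg _).trans h1
  have hμ := nr_mu hε hm
  have hν := nr_nu hA' hε hm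
  have hx := (hμ.inv (by norm_num)).mono (show _ ≤ 1 / 15 by norm_num)
  have hy := (hF.inv (by norm_num)).mono (show _ ≤ 1 / 15 by norm_num)
  have μ0 := hμ.ne (by norm_num)
  have F0 := hF.ne (by norm_num)
  have e0 := he.ne
  have W0 : (W : ℂ) ≠ 0 := ofReal_ne_zero.2 hW.ne'
  have hr : Root (((4 * W : ℝ) : ℂ) * e) := he.real_mul (by positivity)
  push_cast at hr
  have hAe : A = 1 / (16 * W ^ 2 * e ^ 2) := by field_simp; linear_combination hA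
  have hνs := nu_sq A (e ^ 2) m
  have hμs := mu_sq (e ^ 2) m
  rw [kap] at hνs
  generalize mu (e ^ 2) m = μ at *
  generalize nu A (e ^ 2) m = ν at *
  have hk : ∀ {x : ℂ}, Nr x (1 / 15) → ‖A * x ^ 2 / 2‖ ≤ 1 / 150 := fun hx => by
    have := hx.sq.small hA'
    rw [norm_div, Complex.norm_two]
    linarith
  have hk1 : ∀ {x : ℂ}, Nr x (1 / 15) → Nr (x * (1 + A * x ^ 2 / 2)) (1 / 13) := fun hx =>
    (hx.mul (Nr.one_add (hk hx))).mono (by norm_num)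
  have hν0 : Nr (Complex.sqrt (1 - A * (F⁻¹ * (1 + A * F⁻¹ ^ 2 / 2)) ^ 2)) (1 / 80) :=
    (Nr.one_sub ((hk1 hy).sq.small hA')).sqrt.mono (by norm_num)
  have hν0s := P218IN.sqrt_sq' (1 - A * (F⁻¹ * (1 + A * F⁻¹ ^ 2 / 2)) ^ 2)
  generalize Complex.sqrt (1 - A * (F⁻¹ * (1 + A * F⁻¹ ^ 2 / 2)) ^ 2) = ν0 at *
  have s1 : Complex.sqrt ((4 * W * e * F) ^ 2) = 4 * W * e * F :=
    P218IN.sqrt_eq_of_sq (hr.re_mul (hF.mono (by norm_num))) rfl
  have s2 : Complex.sqrt ((4 * W * e * F) ^ 2 - P218IN.Yb ((4 * W * e * F) ^ 2)) =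
      4 * W * e * (F * ν0) := by
    refine P218IN.sqrt_eq_of_sq (hr.re_mul ((hF.mul hν0).mono (by norm_num))) ?_
    rw [mul_pow _ (F * ν0), mul_pow F, hν0s, P218IN.Yb, hAe]
    field_simp
    ring
  have k1 : ‖μ⁻¹ - F⁻¹‖ ≤ 8 / 7 * d := by
    have e1 : μ⁻¹ - F⁻¹ = -((μ - F) * (μ⁻¹ * F⁻¹)) := by field_simp; ring
    rw [e1, norm_neg]
    exact ((hx.mul hy).small h1).trans (by nlinarith)
  have k2 : ν ^ 2 - ν0 ^ 2 = (1 + A * μ⁻¹ ^ 2 / 2) ^ 2 / (4 * W ^ 2) - A * ((μ⁻¹ - F⁻¹) *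
      (1 + A * μ⁻¹ ^ 2 / 2 + A * (μ⁻¹ * F⁻¹) / 2 + A * F⁻¹ ^ 2 / 2) *
      (μ⁻¹ * (1 + A * μ⁻¹ ^ 2 / 2) + F⁻¹ * (1 + A * F⁻¹ ^ 2 / 2))) := by
    have e1 : (1 - 2 * e ^ 2 * m) ^ 2 = 1 - 4 * e ^ 2 * μ ^ 2 := by rw [hμs]; ring
    have e2 : (1 + A * μ⁻¹ ^ 2 / 2) ^ 2 / (4 * W ^ 2) =
        4 * e ^ 2 * A * (1 + A * μ⁻¹ ^ 2 / 2) ^ 2 := by
      rw [div_eq_iff (by simpa using W0)]
      linear_combination (-(1 + A * μ⁻¹ ^ 2 / 2) ^ 2) * hA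
    rw [hνs, hν0s, div_pow, mul_pow (1 - 2 * e ^ 2 * m), e1, e2]
    field_simp
    ring
  have k3 : ‖A * (μ⁻¹ * F⁻¹) / 2‖ ≤ 1 / 150 := by
    have := (hx.mul hy).small hA'
    rw [norm_div, Complex.norm_two]
    linarith
  have k4 := (((Nr.one_add (hk hx)).add k3).add (hk hy)).small k1
  have k5 := norm_add_le_of_le (hk1 hx).norm_le (hk1 hy).norm_le
  have k6 : ‖ν - ν0‖ ≤ 13 / (50 * W ^ 2) + d / 20 := by
    refine (hν.sub_le hν0 (by norm_num)).trans ?_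
    rw [k2]
    refine norm_sub_le_of_le ?_ ?_
    · have := (Nr.one_add (hk hx)).sq.norm_le
      rw [norm_div, norm_mul, norm_pow (W : ℂ), norm_real, Real.norm_of_nonneg hW.le,
        Complex.norm_ofNat, div_le_div_iff₀ (by positivity) (by positivity)]
      nlinarith [sq_nonneg W]
    · rw [norm_mul, norm_mul]
      refine (mul_le_mul hA' (mul_le_mul k4 k5 (norm_nonneg _) (by positivity)) (by positivity)
        (by norm_num)).trans ?_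
      linarith
  have k7 : δ = 4 * W * e * ((l - F) * ν + (ν - ν0) * F - (μ - F) + A * (μ⁻¹ - F⁻¹) / 2) +
      4 * e * A * μ⁻¹ := by
    rw [hδ, P218IN.Rr, s1, s2, hAe]
    field_simp
    ring
  have k8 : ‖A * (μ⁻¹ - F⁻¹) / 2‖ ≤ d / 100 := by
    rw [norm_div, Complex.norm_two, norm_mul]
    linarith [mul_le_mul hA' k1 (norm_nonneg _) (by norm_num)]
  have k9 := norm_add_le_of_le (norm_sub_le_of_le (norm_add_le_of_le (hν.small h2) (hF.small k6))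
    h1) k8
  have k10 : ‖4 * e * A‖ ≤ 1 / (10 * W) := by
    refine le_of_sq_le_sq ?_ (by positivity)
    have e1 : (4 * e * A) ^ 2 = A / W ^ 2 := by
      rw [eq_div_iff (pow_ne_zero 2 W0)]
      linear_combination A * hA
    rw [← norm_pow, e1, norm_div, norm_pow, norm_real, Real.norm_of_nonneg hW.le, div_pow, mul_pow,
      div_le_div_iff₀ (by positivity) (by positivity)]
    nlinarith [sq_nonneg W]
  rw [k7]
  refine norm_add_le_of_le ?_ ((hx.small k10).trans ?_)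
  · rw [norm_mul, norm_mul, norm_mul, Complex.norm_ofNat, norm_real, Real.norm_of_nonneg hW.le]
    refine mul_le_mul_of_nonneg_left (k9.trans ?_) (by positivity)
    have : 13 / (50 * W ^ 2) = 13 / 25 * (1 / (2 * W ^ 2)) := by field_simp; norm_num
    have h3 : 0 ≤ 1 / (2 * W ^ 2) := by positivity
    rw [this]
    linarith
  · rw [div_mul_eq_mul_div, div_le_div_iff₀ (by positivity) (by positivity)]
    linarith

/-- the normalised length of the boundary curve -/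
noncomputable def len (ε : ℂ) (η t : ℝ → ℂ) : ℂ :=
  mean fun θ => Complex.sqrt ((1 + η θ) ^ 2 + t θ ^ 2) / (1 + ε * (1 + η θ) ^ 2)

/-- the normalised area enclosed by the boundary curve -/
noncomputable def are (ε : ℂ) (η : ℝ → ℂ) : ℂ := mean fun θ => (1 + η θ) ^ 2 / (1 + ε * (1 + η θ) ^ 2)

section
variable {W ω : ℝ} {A ε e : ℂ} {η t : ℝ → ℂ}

theorem cont_are (hε : ‖ε‖ ≤ 1 / 100) (cη : Continuous η) (hη : ∀ θ, ‖η θ‖ ≤ 1 / 100) :
    Continuous fun θ => (1 + η θ) ^ 2 / (1 + ε * (1 + η θ) ^ 2) :=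
  Continuous.div (by fun_prop) (by fun_prop) fun θ => (nr_lam hε (hη θ)).ne (by norm_num)

theorem nr_are (hε : ‖ε‖ ≤ 1 / 100) (cη : Continuous η) (hη : ∀ θ, ‖η θ‖ ≤ 1 / 100) :
    Nr (are ε η) (1 / 20) := nr_mean (cont_are hε cη hη) fun θ => nr_m hε (hη θ)

theorem cont_len (hε : ‖ε‖ ≤ 1 / 100) (cη : Continuous η) (ct : Continuous t)
    (hη : ∀ θ, ‖η θ‖ ≤ 1 / 100) (ht : ∀ θ, ‖t θ‖ ≤ 1 / 100) :
    Continuous fun θ => Complex.sqrt ((1 + η θ) ^ 2 + t θ ^ 2) / (1 + ε * (1 + η θ) ^ 2) := by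
  refine Continuous.div ?_ (by fun_prop) fun θ => (nr_lam hε (hη θ)).ne (by norm_num)
  rw [← continuousOn_univ]
  refine P218EF.contOn_sqrt (by fun_prop) fun θ _ => ?_
  linarith [(nr_G (hη θ) (ht θ)).re_ge]

/-- the derivative of the action in the cut, in normalised form, against the inner residual -/
theorem res_le (hW : 0 < W) (hA : 16 * W ^ 2 * e ^ 2 * A = 1) (he : Root e) (hA' : ‖A‖ ≤ 1 / 100)
    (hε : ‖e ^ 2‖ ≤ 1 / 100) (cη : Continuous η) (ct : Continuous t) (hη : ∀ θ, ‖η θ‖ ≤ 1 / 100)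
    (ht : ∀ θ, ‖t θ‖ ≤ 1 / 100) (hω : ∀ θ, ‖η θ - mean η‖ ≤ ω) (hω' : ∀ θ, ‖t θ‖ ≤ ω) :
    ‖8 * π * cexp (-W) * e * nu A (e ^ 2) (are (e ^ 2) η) * len (e ^ 2) η t +
        BdW W (4 * π * e ^ 2 * are (e ^ 2) η) - (2 * π * Real.exp (-W) / W : ℝ) *
        P218IN.Rr (16 * W ^ 2 * (e ^ 2 * (1 + mean η) ^ 2) / (1 + e ^ 2 * (1 + mean η) ^ 2) ^ 2)‖ ≤
      Real.exp (-W) * (100 * ‖e‖ * ω ^ 2 + 3 / W ^ 2) := by
  have h0 : ‖mean η‖ ≤ 1 / 100 := norm_mean_le hη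
  have hm := nr_are hε cη hη
  have hF : Nr ((1 + mean η) / (1 + e ^ 2 * (1 + mean η) ^ 2)) (1 / 16) :=
    ((Nr.one_add h0).mul (nr_laminv hε h0)).mono (by norm_num)
  have l0 := (nr_lam hε h0).ne (by norm_num)
  have h1 : ‖are (e ^ 2) η - (1 + mean η) ^ 2 / (1 + e ^ 2 * (1 + mean η) ^ 2)‖ ≤ 11 / 10 * ω ^ 2 :=
    mean_taylor (cont_are hε cη hη) cη fun θ => taylor_G hε (hη θ) h0 (hω θ)
  have h2 : ‖len (e ^ 2) η t - (1 + mean η) / (1 + e ^ 2 * (1 + mean η) ^ 2)‖ ≤ 11 / 10 * ω ^ 2 :=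
    mean_taylor (cont_len hε cη ct hη ht) cη fun θ => taylor_F hε (hη θ) h0 (ht θ) (hω θ) (hω' θ)
  have h3 : ‖mu (e ^ 2) (are (e ^ 2) η) - (1 + mean η) / (1 + e ^ 2 * (1 + mean η) ^ 2)‖ ≤
      6 / 5 * ω ^ 2 := by
    refine ((nr_mu hε hm).sub_le hF (by norm_num)).trans ?_
    have e1 : mu (e ^ 2) (are (e ^ 2) η) ^ 2 -
        ((1 + mean η) / (1 + e ^ 2 * (1 + mean η) ^ 2)) ^ 2 =
        (are (e ^ 2) η - (1 + mean η) ^ 2 / (1 + e ^ 2 * (1 + mean η) ^ 2)) *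
          (1 - e ^ 2 * are (e ^ 2) η -
            e ^ 2 * ((1 + mean η) ^ 2 / (1 + e ^ 2 * (1 + mean η) ^ 2))) := by
      rw [mu_sq]
      field_simp
      ring
    rw [e1]
    refine (((Nr.one_sub (hm.small hε)).sub ((nr_m hε h0).small hε)).small h1).trans ?_
    nlinarith [sq_nonneg ω]
  have h4 := res_alg hW hA he hA' hε hm hF h3 (h2.trans (by nlinarith [sq_nonneg ω])) rfl
  have W0 : (W : ℂ) ≠ 0 := ofReal_ne_zero.2 hW.ne'
  have e0 := he.ne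
  have μ0 := (nr_mu hε hm).ne (by norm_num)
  have e2 : 16 * W ^ 2 * (e ^ 2 * (1 + mean η) ^ 2) / (1 + e ^ 2 * (1 + mean η) ^ 2) ^ 2 =
      (4 * W * e * ((1 + mean η) / (1 + e ^ 2 * (1 + mean η) ^ 2))) ^ 2 := by
    field_simp
    ring
  rw [e2, BdW, sb_eq he hε hm]
  generalize P218IN.Rr _ = ρ at h4 ⊢
  generalize mu (e ^ 2) (are (e ^ 2) η) = μ at h4 μ0 ⊢
  have e3 : 8 * π * cexp (-W) * e * nu A (e ^ 2) (are (e ^ 2) η) * len (e ^ 2) η t +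
      4 * π * cexp (-W) * (-(2 * e * μ) + 1 / (8 * W ^ 2 * (2 * e * μ)) +
        1 / (4 * W ^ 3 * (2 * e * μ))) - (2 * π * Real.exp (-W) / W : ℝ) * ρ =
      (2 * π * Real.exp (-W) / W : ℝ) * (4 * W * e * nu A (e ^ 2) (are (e ^ 2) η) *
        len (e ^ 2) η t + (-(4 * W * e * μ) + 1 / (2 * (4 * W * e * μ)) +
          1 / (W * (4 * W * e * μ))) - ρ) := by
    push_cast
    field_simp
    ring
  have h5 : ‖e‖ ≤ 1 / 10 := by
    refine le_of_sq_le_sq ?_ (by norm_num)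
    rw [← norm_pow]
    linarith
  have h6 := Real.exp_pos (-W)
  have h7 := Real.pi_lt_d2
  have h8 := Real.pi_pos
  rw [e3, norm_mul, norm_real, Real.norm_of_nonneg (by positivity)]
  refine (mul_le_mul_of_nonneg_left h4 (by positivity)).trans ?_
  have e4 : 2 * π * Real.exp (-W) / W * (4 * W * ‖e‖ * (5 / 2 * (6 / 5 * ω ^ 2) + 1 / (2 * W ^ 2)) +
      1 / (9 * W)) = Real.exp (-W) * (24 * π * (‖e‖ * ω ^ 2) +
        (4 * π * ‖e‖ + 2 * π / 9) / W ^ 2) := by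
    field_simp
    ring
  rw [e4, mul_assoc 100]
  have h9 : π * ‖e‖ ≤ 3.15 * (1 / 10) := by gcongr
  gcongr
  · linarith
  · linarith

end

end Vale.Agent.P218WD
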